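import Vale.Agent.P092.H650.Alg2S

/-!
P092 (helper715), project Q, blocks [Q-ALG] and [Q-2S]: definitions.
Two frames `(ρ, V)` and `(ρ', W)` on the same space with the same trace vector.  In project Q (leg `l`)
`X = Γ × Γ`, `f` = the leg, `ρ x = R₁ (x.1) * R₂ (x.2)`, `W = R_l`, `V = Δ(u_g)`, and `Y = Γ × Λ`,
`f' = fst`, `ρ' (g, c) = V g * r_c` (`r_c` the right translation of the other leg).
`p : Γ →* G` is the target place, `κ : Γ →* H` is the source place.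
-/

set_option linter.all false

open scoped InnerProductSpace Topology ENNReal
open Filter ContinuousLinearMap MeasureTheory
open Vale.Agent.P092.H160
open Vale.Agent.P092.H156.Sm

namespace Vale.Agent.P092.H715.Q

section defs

variable {Γ X Y G H K : Type} [Group Γ] [Group X] [Group Y] [Group G] [Group H]
  [TopologicalSpace G] [TopologicalSpace H] [MeasurableSpace G] [MeasurableSpace H]
  [NormedAddCommGroup K] [InnerProductSpace ℂ K] [CompleteSpace K]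

/-- The two frames: `W` is the restriction of `ρ` to the leg, `V` is the restriction of `ρ'`; the
kernels have the same commutant. -/
structure Dbl (V W : Γ →* (K →L[ℂ] K)) (f : X →* Γ) (ρ : X →* (K →L[ℂ] K)) (f' : Y →* Γ)
    (ρ' : Y →* (K →L[ℂ] K)) (ω : K) : Prop where
  fr : Frm ρ V ω
  fr' : Frm ρ' W ω
  sec : ∀ g, ∃ x, f x = g ∧ ρ x = W g
  sec' : ∀ g, ∃ y, f' y = g ∧ ρ' y = V g
  ker : ∀ T : K →L[ℂ] K, (∀ x, f x = 1 → T * ρ x = ρ x * T) ↔ (∀ y, f' y = 1 → T * ρ' y = ρ' y * T)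

/-- The flip: the field `h ↦ α_h (b 1)` of the second frame. -/
noncomputable def fl (κ : Γ →* H) (V : Γ →* (K →L[ℂ] K)) (b : G → K →L[ℂ] K) : H → K →L[ℂ] K :=
  fun h => H650.al κ V h b 1

/-- [T4] / [F1] for one frame: `∫ ⟨a x ζ, b x η⟩ = ⟨a, b⟩ ⟨ζ, η⟩`. -/
def F1 (ι : X →* G) (κ : Γ →* H) (ρ : X →* (K →L[ℂ] K)) (V : Γ →* (K →L[ℂ] K)) (ω : K)
    (μ : Measure G) : Prop :=
  ∀ a b, Smo ι κ ρ V ω μ a → Smo ι κ ρ V ω μ b → ∀ ζ η : K, MemLp (fun x => a x ζ) 2 μ ∧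
    ∫ x, ⟪a x ζ, b x η⟫_ℂ ∂μ = ip ω μ a b * ⟪ζ, η⟫_ℂ

/-- The two sided algebra: smooth fields, square integrable for both frames. -/
structure TwS (V : Γ →* (K →L[ℂ] K)) (f : X →* Γ) (ρ : X →* (K →L[ℂ] K)) (ω : K) (p : Γ →* G)
    (κ : Γ →* H) (μ : Measure G) (ν : Measure H) (b : G → K →L[ℂ] K) : Prop where
  smo : Smo (p.comp f) κ ρ V ω μ b
  l2' : L2 ω ν (fl κ V b)

end defs

end Vale.Agent.P092.H715.Q
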