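import Vale.Agent.P092.H171.Ej
import Vale.Agent.P092.H171.Ext
import Vale.Agent.P092.H941.FrE
import Vale.Agent.P092.SD.Blocks

/-!
helper715, P092, Team D, [XC-4] (ii): an operator which commutes with the point calculi commutes
with the calculus of the collineation. Abstract form: `c : G → (ι → P)` an open embedding.
-/

set_option linter.all false

namespace Vale.Agent.P092.H715.Gen

open Topology TopologicalSpace Filter Set
open Vale.Agent.P092.H171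
open scoped InnerProductSpace ComplexConjugate ZeroAtInfty

section abs

variable {G Z : Type*} [TopologicalSpace G] [TopologicalSpace Z] [CompactSpace Z]

/-- multiplication of a function vanishing at infinity by a function of `c x` -/
noncomputable def mulB {c : G → Z} (hc : Continuous c) (F : C(Z, ℂ)) (φ : C₀(G, ℂ)) : C₀(G, ℂ) :=
  ⟨⟨fun x => F (c x) * φ x, (F.continuous.comp hc).mul φ.continuous⟩, by
    have h1 : Tendsto (fun x => ‖F‖ * ‖φ x‖) (cocompact G) (𝓝 0) := by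
      have := (tendsto_zero_iff_norm_tendsto_zero.1 φ.zero_at_infty').const_mul ‖F‖
      rwa [mul_zero] at this
    refine squeeze_zero_norm (fun x => ?_) h1
    change ‖F (c x) * φ x‖ ≤ _
    rw [norm_mul]
    exact mul_le_mul_of_nonneg_right (F.norm_coe_le_norm _) (norm_nonneg _)⟩

@[simp] theorem mulB_apply {c : G → Z} (hc : Continuous c) (F : C(Z, ℂ)) (φ : C₀(G, ℂ)) (x : G) :
    mulB hc F φ x = F (c x) * φ x := rfl

theorem norm_mulB_le {c : G → Z} (hc : Continuous c) (F : C(Z, ℂ)) (φ : C₀(G, ℂ)) :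
    ‖mulB hc F φ‖ ≤ ‖F‖ * ‖φ‖ := by
  rw [← ZeroAtInftyContinuousMap.norm_toBCF_eq_norm]
  refine (BoundedContinuousFunction.norm_le (by positivity)).2 fun x => ?_
  change ‖F (c x) * φ x‖ ≤ _
  rw [norm_mul]
  refine mul_le_mul (F.norm_coe_le_norm _) ?_ (norm_nonneg _) (norm_nonneg _)
  rw [← ZeroAtInftyContinuousMap.norm_toBCF_eq_norm]
  exact (ZeroAtInftyContinuousMap.toBCF φ).norm_coe_le_norm x

theorem mulB_cont {c : G → Z} (hc : Continuous c) (φ : C₀(G, ℂ)) :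
    Continuous fun F : C(Z, ℂ) => mulB hc F φ := by
  rw [Metric.continuous_iff]
  intro F ε hε
  refine ⟨ε / (‖φ‖ + 1), by positivity, fun F' h => ?_⟩
  have e : mulB hc F' φ - mulB hc F φ = mulB hc (F' - F) φ := by
    ext x
    simp [sub_mul]
  rw [dist_eq_norm] at h ⊢
  rw [e]
  refine (norm_mulB_le hc _ _).trans_lt ?_
  have h0 : 0 ≤ ‖F' - F‖ := norm_nonneg _
  rw [lt_div_iff₀ (by positivity)] at h
  nlinarith [norm_nonneg φ]

variable {K : Type*} [NormedAddCommGroup K] [InnerProductSpace ℂ K] [CompleteSpace K]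

theorem Q_cont (Q : C₀(G, ℂ) →⋆ₙₐ[ℂ] (K →L[ℂ] K)) : Continuous Q :=
  (AddMonoidHomClass.continuous_of_bound Q 1 fun x => by
    rw [one_mul]
    exact NonUnitalStarAlgHom.norm_apply_le Q x)

/-- an operator which kills the range of all `Q φ` is zero -/
theorem zero_of_mul {Q : C₀(G, ℂ) →⋆ₙₐ[ℂ] (K →L[ℂ] K)}
    (nd : ∀ ξ, (∀ ψ, Q ψ ξ = 0) → ξ = 0) {X : K →L[ℂ] K} (h : ∀ φ, X * Q φ = 0) : X = 0 := by
  have h1 : star X = 0 := by
    ext ξ
    refine nd _ fun ψ => ?_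
    have h2 : Q ψ * star X = 0 := by
      have := congrArg star (h (star ψ))
      rwa [star_mul, star_zero, ← map_star, star_star] at this
    exact congrArg (fun T : K →L[ℂ] K => T ξ) h2
  rw [← star_star X, h1, star_zero]

theorem eq_of_mul {Q : C₀(G, ℂ) →⋆ₙₐ[ℂ] (K →L[ℂ] K)}
    (nd : ∀ ξ, (∀ ψ, Q ψ ξ = 0) → ξ = 0) {X Y : K →L[ℂ] K} (h : ∀ φ, X * Q φ = Y * Q φ) :
    X = Y :=
  sub_eq_zero.1 (zero_of_mul nd fun φ => by rw [sub_mul, h, sub_self])

variable {P : Type*} [TopologicalSpace P] [CompactSpace P] [T2Space P] {ι : Type*}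

/-- **Generation.** -/
theorem gen_abs {c : G → ι → P} (hc : IsOpenEmbedding c) {Q : C₀(G, ℂ) →⋆ₙₐ[ℂ] (K →L[ℂ] K)}
    (nd : ∀ ξ, (∀ ψ, Q ψ ξ = 0) → ξ = 0) {E : ι → (C(P, ℂ) →⋆ₐ[ℂ] (K →L[ℂ] K))}
    (mulE : ∀ i (f : C(P, ℂ)) (ψ ψ' : C₀(G, ℂ)), (∀ x, ψ' x = f (c x i) * ψ x) →
      E i f * Q ψ = Q ψ') :
    ∃ Φ : C(ι → P, ℂ) →⋆ₐ[ℂ] (K →L[ℂ] K), (∀ i f, Φ (co i f) = E i f) ∧
      (∀ F φ, Φ F * Q φ = Q (mulB hc.continuous F φ)) ∧ ∀ ψ, Φ (ext hc ψ) = Q ψ := by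
  have hE : ∀ i f φ, E i f * Q φ = Q (mulB hc.continuous (co i f) φ) := fun i f φ =>
    mulE i f φ _ fun x => rfl
  have hcomm : ∀ i j f g, Commute (E i f) (E j g) := by
    intro i j f g
    refine eq_of_mul nd fun φ => ?_
    rw [mul_assoc, mul_assoc, hE, hE, hE, hE]
    congr 1
    ext x
    simp only [mulB_apply]
    ring
  obtain ⟨Φ, hΦ⟩ := exists_joint E hcomm
  have key : ∀ F φ, Φ F * Q φ = Q (mulB hc.continuous F φ) := by
    intro F
    refine co_induction (fun F => ∀ φ, Φ F * Q φ = Q (mulB hc.continuous F φ)) ?_ ?_ ?_ ?_ ?_ F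
    · have e : {F : C(ι → P, ℂ) | ∀ φ, Φ F * Q φ = Q (mulB hc.continuous F φ)} =
          ⋂ φ, {F | Φ F * Q φ = Q (mulB hc.continuous F φ)} := by
        ext F; simp
      rw [e]
      exact isClosed_iInter fun φ => isClosed_eq ((cont_hom Φ).mul continuous_const)
        ((Q_cont Q).comp (mulB_cont hc.continuous φ))
    · intro i f φ
      rw [hΦ, hE]
    · intro z φ
      rw [AlgHomClass.commutes, Algebra.algebraMap_eq_smul_one, smul_mul_assoc, one_mul,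
        ← map_smul]
      congr 1
    · intro F F' hF hF' φ
      rw [map_add, add_mul, hF, hF', ← map_add]
      congr 1
      ext x
      simp only [mulB_apply, ZeroAtInftyContinuousMap.coe_add, Pi.add_apply,
        ContinuousMap.add_apply, add_mul]
    · intro F F' hF hF' φ
      rw [map_mul, mul_assoc, hF', hF]
      congr 1
      ext x
      simp only [mulB_apply, ContinuousMap.mul_apply]
      ring
  refine ⟨Φ, hΦ, key, fun ψ => eq_of_mul nd fun φ => ?_⟩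
  rw [key, ← map_mul]
  congr 1
  ext x
  rw [mulB_apply, ext_apply]
  rfl

/-- **An operator commuting with the point calculi commutes with the calculus of `x`.** -/
theorem comm_abs {c : G → ι → P} (hc : IsOpenEmbedding c) {Q : C₀(G, ℂ) →⋆ₙₐ[ℂ] (K →L[ℂ] K)}
    (nd : ∀ ξ, (∀ ψ, Q ψ ξ = 0) → ξ = 0) {E : ι → (C(P, ℂ) →⋆ₐ[ℂ] (K →L[ℂ] K))}
    (mulE : ∀ i (f : C(P, ℂ)) (ψ ψ' : C₀(G, ℂ)), (∀ x, ψ' x = f (c x i) * ψ x) →
      E i f * Q ψ = Q ψ') {T : K →L[ℂ] K} (hT : ∀ i f, Commute T (E i f)) (ψ : C₀(G, ℂ)) :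
    Commute T (Q ψ) := by
  obtain ⟨Φ, h1, h2, h3⟩ := gen_abs hc nd mulE
  rw [← h3]
  exact comm_all Φ (fun i f => by rw [h1]; exact hT i f) _

end abs

/-! ### The case of the projective plane over `ℝ` -/

section sd

open Vale.Agent.P092.SD Vale.Agent.P092.H941.FrD

variable {Γ K : Type} [Group Γ] [NormedAddCommGroup K] [InnerProductSpace ℂ K] [CompleteSpace K]
  {π : G3 ℝ →* (K →L[ℂ] K)} {lam : Γ →* (K →L[ℂ] K)} {W : Set (K →L[ℂ] K)} {q : Γ →* G3 ℝ}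
  {E F : PP ℝ → (CP ℝ →⋆ₐ[ℂ] (K →L[ℂ] K))} {Q : C₀(G3 ℝ, ℂ) →⋆ₙₐ[ℂ] (K →L[ℂ] K)}

theorem gen (h : SD.Cls π lam W q E F Q) {T : K →L[ℂ] K} (hT : ∀ a f, Commute T (E a f))
    (ψ : C₀(G3 ℝ, ℂ)) : Commute T (Q ψ) :=
  comm_abs isOpenEmbedding_cmap h.nd (E := fun i => E (src ℝ i))
    (fun i f ψ ψ' hψ => h.mulE (src ℝ i) f ψ ψ' hψ) (fun i f => hT _ f) ψ

/-- two classical legs: it is enough that the points of one commute with `Q` of the other -/
theorem comm_legs {lam' : Γ →* (K →L[ℂ] K)} {W' : Set (K →L[ℂ] K)} {q' : Γ →* G3 ℝ}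
    {E' F' : PP ℝ → (CP ℝ →⋆ₐ[ℂ] (K →L[ℂ] K))} {Q' : C₀(G3 ℝ, ℂ) →⋆ₙₐ[ℂ] (K →L[ℂ] K)}
    {π' : G3 ℝ →* (K →L[ℂ] K)}
    (h : SD.Cls π lam W q E F Q)
    (hT : ∀ a f φ, Commute (E a f) (Q' φ)) : ∀ ψ φ, Commute (Q ψ) (Q' φ) :=
  fun ψ φ => (gen h (T := Q' φ) (fun a f => (hT a f φ).symm) ψ).symm

/-- the point calculi commute -/
theorem comm_pts (h : SD.Cls π lam W q E F Q) (a b : PP ℝ) (f g : CP ℝ) :
    Commute (E a f) (E b g) := by
  refine eq_of_mul h.nd fun φ => ?_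
  have hE : ∀ a f φ, E a f * Q φ = Q (mulB (c := fun x : G3 ℝ => x • a)
      (continuous_id.smul continuous_const) f φ) := fun a f φ => h.mulE a f φ _ fun x => rfl
  rw [mul_assoc, mul_assoc, hE, hE, hE, hE]
  congr 1
  ext x
  simp only [mulB_apply]
  ring

end sd

end Vale.Agent.P092.H715.Gen
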