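import Vale.Agent.P092.H715.Disj
import Vale.Agent.P092.H820.Pn

/-!
helper715, P092, [U9]: the unipotent group `N_v = {1 + v ⊗ φ : φ(v) = 0}` of `SL_n(k)` moves the
neighbourhoods of all points different from `[v]` to disjoint sets; with a field embedding `σ`.
All fields, all `n`.
-/

set_option linter.all false

open Filter Topology Set Matrix
open scoped LinearAlgebra.Projectivization

namespace Vale.Agent.P092.H715.Disj

open Vale.Agent.P092.H820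

section alg

variable {n k : Type*} [Fintype n] [DecidableEq n] [Field k]

/-- the element `1 + v ⊗ φ` -/
def nn (v φ : n → k) (h : φ ⬝ᵥ v = 0) : SpecialLinearGroup n k :=
  ⟨1 + vecMulVec v φ, by
    rw [vecMulVec_eq Unit, det_one_add_replicateCol_mul_replicateRow, h, add_zero]⟩

/-- the group `N_v`, as a set -/
def NN (v : n → k) : Set (SpecialLinearGroup n k) := {g | ∃ (φ : n → k) (h : φ ⬝ᵥ v = 0), g = nn v φ h}

theorem nn_mul (v φ ψ : n → k) (h : φ ⬝ᵥ v = 0) (h' : ψ ⬝ᵥ v = 0) :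
    nn v φ h * nn v ψ h' = nn v (φ + ψ) (by rw [add_dotProduct, h, h', add_zero]) := by
  apply Subtype.ext
  change (1 + vecMulVec v φ) * (1 + vecMulVec v ψ) = 1 + vecMulVec v (φ + ψ)
  rw [add_mul, mul_add, mul_add, one_mul, mul_one, one_mul, vecMulVec_mul_vecMulVec, h, zero_smul,
    vecMulVec_zero, add_zero, vecMulVec_add]
  abel

theorem nn_comm (v : n → k) {g h : SpecialLinearGroup n k} (hg : g ∈ NN v) (hh : h ∈ NN v) :
    Commute g h := by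
  obtain ⟨φ, h1, rfl⟩ := hg
  obtain ⟨ψ, h2, rfl⟩ := hh
  change _ * _ = _ * _
  rw [nn_mul, nn_mul]
  congr 1
  exact add_comm _ _

theorem nn_one (v : n → k) : (1 : SpecialLinearGroup n k) ∈ NN v :=
  ⟨0, zero_dotProduct v, by
    apply Subtype.ext
    change (1 : Matrix n n k) = 1 + vecMulVec v 0
    rw [vecMulVec_zero, add_zero]⟩

theorem nn_mul_mem (v : n → k) {g h : SpecialLinearGroup n k} (hg : g ∈ NN v) (hh : h ∈ NN v) :
    g * h ∈ NN v := by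
  obtain ⟨φ, h1, rfl⟩ := hg
  obtain ⟨ψ, h2, rfl⟩ := hh
  exact ⟨_, _, nn_mul v φ ψ h1 h2⟩

theorem nn_inv_mem (v : n → k) {g : SpecialLinearGroup n k} (hg : g ∈ NN v) : g⁻¹ ∈ NN v := by
  obtain ⟨φ, h1, rfl⟩ := hg
  have h2 : (-φ) ⬝ᵥ v = 0 := by rw [neg_dotProduct, h1, neg_zero]
  refine ⟨-φ, h2, ?_⟩
  rw [inv_eq_iff_mul_eq_one, nn_mul]
  apply Subtype.ext
  change 1 + vecMulVec v (φ + -φ) = 1
  rw [add_neg_cancel, vecMulVec_zero, add_zero]

/-- `N_v` as a subgroup -/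
def NG (v : n → k) : Subgroup (SpecialLinearGroup n k) where
  carrier := NN v
  mul_mem' := nn_mul_mem v
  one_mem' := nn_one v
  inv_mem' := nn_inv_mem v

theorem nn_mulVec (v φ w : n → k) (h : φ ⬝ᵥ v = 0) :
    (nn v φ h).1 *ᵥ w = w + (φ ⬝ᵥ w) • v := by
  change (1 + vecMulVec v φ) *ᵥ w = _
  rw [add_mulVec, one_mulVec]
  congr 1
  ext i
  simp [vecMulVec, mulVec, dotProduct, Finset.sum_mul, Finset.mul_sum, mul_comm, mul_left_comm]

end alg

section pt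

variable {n k k' : Type*} [Fintype n] [DecidableEq n] [Field k] [Field k']

/-- the image of a vector under a field embedding -/
def sv (σ : k →+* k') (v : n → k) : n → k' := fun i => σ (v i)

theorem sv_ne (σ : k →+* k') {v : n → k} (hv : v ≠ 0) : sv σ v ≠ 0 := by
  intro h
  apply hv
  ext i
  have := congrFun h i
  exact (map_eq_zero σ).1 this

theorem sv_dot (σ : k →+* k') (v w : n → k) : sv σ v ⬝ᵥ sv σ w = σ (v ⬝ᵥ w) := by
  simp [sv, dotProduct, map_sum]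

theorem map_nn (σ : k →+* k') (v φ : n → k) (h : φ ⬝ᵥ v = 0) :
    SpecialLinearGroup.map σ (nn v φ h) = nn (sv σ v) (sv σ φ) (by rw [sv_dot, h, map_zero]) := by
  apply Subtype.ext
  ext i j
  change σ ((1 + vecMulVec v φ) i j) = (1 + vecMulVec (sv σ v) (sv σ φ)) i j
  simp only [Matrix.add_apply, vecMulVec_apply, map_add, map_mul, sv]
  congr 1
  by_cases hij : i = j
  · subst hij; simp
  · simp [hij]

end pt

section top

variable {n k' : Type*} [Fintype n] [DecidableEq n] [NontriviallyNormedField k']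

/-- the neighbourhood of the points far from the hyperplane `φ = 0` -/
def nbd (φ : n → k') (c : ℝ) : Set (ℙ k' (n → k')) :=
  pj k' n '' {w : {w : n → k' // w ≠ 0} | c * ‖w.1‖ < ‖φ ⬝ᵥ w.1‖}

theorem nbd_open (φ : n → k') (c : ℝ) : IsOpen (nbd φ c) := by
  refine pj_open _ ?_
  exact isOpen_lt (continuous_const.mul continuous_subtype_val.norm)
    ((Continuous.dotProduct continuous_const continuous_subtype_val).norm)

/-- elements with far parameters move `nbd` to disjoint sets -/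
theorem nbd_disj {v φ : n → k'} (hv : v ≠ 0) {c : ℝ} (hc : 0 < c)
    (s s' : k') (h : (s • φ) ⬝ᵥ v = 0) (h' : (s' • φ) ⬝ᵥ v = 0) (hφ : φ ⬝ᵥ v = 0)
    (hs : 2 / (c * ‖v‖) ≤ ‖s - s'‖) {x x' : ℙ k' (n → k')} (hx : x ∈ nbd φ c)
    (hx' : x' ∈ nbd φ c) : nn v (s • φ) h • x ≠ nn v (s' • φ) h' • x' := by
  obtain ⟨w, hw, rfl⟩ := hx
  obtain ⟨w', hw', rfl⟩ := hx'
  intro he
  have he2 : pj k' n ⟨(nn v (s • φ) h).1 *ᵥ w.1,
      (smul_ne_zero_iff_ne (nn v (s • φ) h)).2 w.2⟩ =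
      pj k' n ⟨(nn v (s' • φ) h').1 *ᵥ w'.1,
        (smul_ne_zero_iff_ne (nn v (s' • φ) h')).2 w'.2⟩ := he
  obtain ⟨a, ha⟩ := (pj_eq _ _).1 he2
  have ha' : (a : k') • ((nn v (s' • φ) h').1 *ᵥ w'.1) = (nn v (s • φ) h).1 *ᵥ w.1 := ha
  rw [nn_mulVec, nn_mulVec] at ha'
  -- rescale `w'`
  obtain ⟨u, hu⟩ : ∃ u : n → k', u = (a : k') • w'.1 := ⟨_, rfl⟩
  have hu0 : c * ‖u‖ < ‖φ ⬝ᵥ u‖ := by
    have h1 : c * ‖w'.1‖ < ‖φ ⬝ᵥ w'.1‖ := hw'
    have ha0 : 0 < ‖(a : k')‖ := norm_pos_iff.2 a.ne_zero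
    rw [hu, dotProduct_smul, norm_smul, smul_eq_mul, norm_mul]
    nlinarith
  have hw0 : c * ‖w.1‖ < ‖φ ⬝ᵥ w.1‖ := hw
  have e1 : u + (s' * (φ ⬝ᵥ u)) • v = w.1 + (s * (φ ⬝ᵥ w.1)) • v := by
    have : (a : k') • (w'.1 + ((s' • φ) ⬝ᵥ w'.1) • v) = u + (s' * (φ ⬝ᵥ u)) • v := by
      rw [smul_add, ← hu, smul_smul, hu, dotProduct_smul, smul_dotProduct]
      congr 2
      simp only [smul_eq_mul]; ring
    rw [← this, ha', smul_dotProduct, smul_eq_mul]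
  have e2 : φ ⬝ᵥ u = φ ⬝ᵥ w.1 := by
    have := congrArg (fun z => φ ⬝ᵥ z) e1
    simpa [dotProduct_add, dotProduct_smul, hφ] using this
  have e3 : u - w.1 = ((s - s') * (φ ⬝ᵥ w.1)) • v := by
    rw [e2] at e1
    rw [sub_eq_iff_eq_add, sub_mul, sub_smul]
    have := eq_sub_of_add_eq e1
    rw [this]; abel
  have e4 : ‖s - s'‖ * ‖φ ⬝ᵥ w.1‖ * ‖v‖ ≤ ‖u‖ + ‖w.1‖ := by
    rw [← norm_mul, ← norm_smul, ← e3]
    exact norm_sub_le _ _
  have hv0 : 0 < ‖v‖ := norm_pos_iff.2 hv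
  have hp : 0 < ‖φ ⬝ᵥ w.1‖ := lt_of_le_of_lt (by positivity) hw0
  rw [div_le_iff₀ (by positivity)] at hs
  rw [e2] at hu0
  have e5 : 2 * ‖φ ⬝ᵥ w.1‖ ≤ ‖s - s'‖ * (c * ‖v‖) * ‖φ ⬝ᵥ w.1‖ :=
    mul_le_mul_of_nonneg_right hs hp.le
  nlinarith

end top

section main

variable {n k k' : Type*} [Fintype n] [DecidableEq n] [Field k] [NontriviallyNormedField k']

/-- parameters which are far from each other -/
theorem exists_far (σ : k →+* k') (hσ : ∃ t, 1 < ‖σ t‖) (S : ℝ) (M : ℕ) :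
    ∃ s : Fin M → k, ∀ i j, i ≠ j → S ≤ ‖σ (s i) - σ (s j)‖ := by
  obtain ⟨t, ht⟩ := hσ
  obtain ⟨N, hN⟩ := pow_unbounded_of_one_lt (max S 0 + 2) ht
  obtain ⟨τ, hτ⟩ : ∃ τ : ℝ, τ = ‖σ t‖ ^ N := ⟨_, rfl⟩
  rw [← hτ] at hN
  have h0 : (0 : ℝ) ≤ max S 0 := le_max_right _ _
  have hS : S ≤ max S 0 := le_max_left _ _
  have key : ∀ a b : ℕ, a < b → S ≤ ‖σ ((t ^ N) ^ b) - σ ((t ^ N) ^ a)‖ := by
    intro a b hab
    have e : ∀ m, ‖σ ((t ^ N) ^ m)‖ = τ ^ m := fun m => by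
      rw [map_pow, map_pow, norm_pow, norm_pow, hτ]
    have h1 := norm_sub_norm_le (σ ((t ^ N) ^ b)) (σ ((t ^ N) ^ a))
    rw [e, e] at h1
    have h2 : τ ^ b = τ ^ a * τ ^ (b - a) := by rw [← pow_add]; congr 1; omega
    have h3 : (1 : ℝ) ≤ τ ^ a := one_le_pow₀ (by linarith)
    have h4 : τ ≤ τ ^ (b - a) := le_self_pow₀ (by linarith) (by omega)
    nlinarith
  refine ⟨fun i => (t ^ N) ^ (i : ℕ), fun i j hij => ?_⟩
  rcases lt_or_gt_of_ne (fun h : (i : ℕ) = j => hij (Fin.ext h)) with h | h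
  · rw [norm_sub_rev]; exact key _ _ h
  · exact key _ _ h

/-- **(DISJ) for the unipotent radical of the stabiliser of a point**, through a field embedding
and a homomorphism `ι` to any group which acts on the target space. -/
theorem disj_nn {G : Type*} [Group G] [MulAction G (ℙ k' (n → k'))] (σ : k →+* k')
    (hσ : ∃ t, 1 < ‖σ t‖) (ι : SpecialLinearGroup n k →* G)
    (hι : ∀ h (x : ℙ k' (n → k')), ι h • x = SpecialLinearGroup.map σ h • x)
    {v : n → k} (hv : v ≠ 0) : Disj ι (NN v) (pj k' n ⟨sv σ v, sv_ne σ hv⟩) := by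
  intro ξ hξ
  obtain ⟨w, rfl⟩ := pj_surj ξ
  have hwd : wd w.1 (sv σ v) ≠ 0 := fun h => hξ ((pj_eq_iff _ _).2 h)
  obtain ⟨⟨i, j⟩, hij⟩ : ∃ p, wd w.1 (sv σ v) p ≠ 0 := by
    by_contra hc
    push Not at hc
    exact hwd (funext hc)
  have hij' : w.1 i * σ (v j) - w.1 j * σ (v i) ≠ 0 := hij
  -- the functional
  obtain ⟨φ, hφ⟩ : ∃ φ : n → k, φ = v j • (Pi.single i 1 : n → k) - v i • (Pi.single j 1) :=
    ⟨_, rfl⟩
  have hφv : φ ⬝ᵥ v = 0 := by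
    rw [hφ, sub_dotProduct, smul_dotProduct, smul_dotProduct, single_dotProduct,
      single_dotProduct]
    simp only [smul_eq_mul]; ring
  have hφw : sv σ φ ⬝ᵥ w.1 ≠ 0 := by
    have e : sv σ φ = σ (v j) • (Pi.single i 1 : n → k') - σ (v i) • (Pi.single j 1) := by
      ext a
      simp only [sv, hφ, Pi.sub_apply, Pi.smul_apply, smul_eq_mul, map_sub, map_mul]
      congr 2
      · by_cases h : a = i
        · subst h; simp
        · simp [h]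
      · by_cases h : a = j
        · subst h; simp
        · simp [h]
    rw [e, sub_dotProduct, smul_dotProduct, smul_dotProduct, single_dotProduct,
      single_dotProduct]
    simp only [smul_eq_mul, one_mul]
    intro h
    apply hij'
    rw [← h]; ring
  have hσφv : sv σ φ ⬝ᵥ sv σ v = 0 := by rw [sv_dot, hφv, map_zero]
  have hw0 : 0 < ‖w.1‖ := norm_pos_iff.2 w.2
  have hp0 : 0 < ‖sv σ φ ⬝ᵥ w.1‖ := norm_pos_iff.2 hφw
  obtain ⟨c, hc⟩ : ∃ c : ℝ, c = ‖sv σ φ ⬝ᵥ w.1‖ / (2 * ‖w.1‖) := ⟨_, rfl⟩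
  have hc0 : 0 < c := by rw [hc]; positivity
  refine ⟨nbd (sv σ φ) c, nbd_open _ _, ⟨w, ?_, rfl⟩, fun M => ?_⟩
  · change c * ‖w.1‖ < ‖sv σ φ ⬝ᵥ w.1‖
    have : c * ‖w.1‖ = ‖sv σ φ ⬝ᵥ w.1‖ / 2 := by
      rw [hc]; field_simp
    linarith
  · obtain ⟨s, hs⟩ := exists_far σ hσ (2 / (c * ‖sv σ v‖)) M
    have hz : ∀ a, (s a • φ) ⬝ᵥ v = 0 := fun a => by rw [smul_dotProduct, hφv, smul_zero]
    refine ⟨fun a => nn v (s a • φ) (hz a), fun a => ⟨_, _, rfl⟩, fun a b hab x hx x' hx' => ?_⟩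
    rw [hι, hι, map_nn, map_nn]
    have e : ∀ a, sv σ (s a • φ) = σ (s a) • sv σ φ := fun a => by
      ext i; simp [sv]
    have hz' : ∀ a, (σ (s a) • sv σ φ) ⬝ᵥ sv σ v = 0 := fun a => by
      rw [smul_dotProduct, hσφv, smul_zero]
    have key := nbd_disj (sv_ne σ hv) hc0 (σ (s a)) (σ (s b)) (hz' a) (hz' b) hσφv (hs a b hab)
      hx hx'
    have e1 : ∀ a (h1 : sv σ (s a • φ) ⬝ᵥ sv σ v = 0),
        nn (sv σ v) (sv σ (s a • φ)) h1 = nn (sv σ v) (σ (s a) • sv σ φ) (hz' a) := by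
      intro a h1
      congr 1
      exact e a
    rw [e1, e1]
    exact key

/-- the elements of `N_v` fix the point `[σ v]` -/
theorem nn_fix (σ : k →+* k') {v : n → k} (hv : v ≠ 0) {g : SpecialLinearGroup n k}
    (hg : g ∈ NN v) : SpecialLinearGroup.map σ g • pj k' n ⟨sv σ v, sv_ne σ hv⟩ =
      pj k' n ⟨sv σ v, sv_ne σ hv⟩ := by
  obtain ⟨φ, h, rfl⟩ := hg
  rw [map_nn]
  change pj k' n ⟨(nn (sv σ v) (sv σ φ) _).1 *ᵥ sv σ v, _⟩ = _
  refine (pj_eq _ _).2 ⟨1, ?_⟩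
  rw [one_smul]
  change _ = (nn (sv σ v) (sv σ φ) _).1 *ᵥ sv σ v
  rw [nn_mulVec, sv_dot, h, map_zero, zero_smul, add_zero]

theorem hσ_id : ∃ t : k', 1 < ‖(RingHom.id k') t‖ := NormedField.exists_one_lt_norm k'

end main

end Vale.Agent.P092.H715.Disj
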