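import Mathlib

/-!
helper715, P092, [U9]: states which are almost invariant under many elements which move the
neighbourhoods of every point different from `y` to disjoint sets. Finitary form.
-/

set_option linter.all false

open Filter Topology Set

namespace Vale.Agent.P092.H715.Disj

variable {H G P : Type*} [Group H] [Group G] [TopologicalSpace P] [MulAction G P]

/-- every point different from `y` has a neighbourhood with arbitrarily many pairwise disjoint
translates by elements of `N` -/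
def Disj (ι : H →* G) (N : Set H) (y : P) : Prop :=
  ∀ ξ : P, ξ ≠ y → ∃ V : Set P, IsOpen V ∧ ξ ∈ V ∧ ∀ M : ℕ, ∃ n : Fin M → H,
    (∀ i, n i ∈ N) ∧ ∀ i j, i ≠ j → ∀ x ∈ V, ∀ x' ∈ V, ι (n i) • x ≠ ι (n j) • x'

/-- translate of a function -/
def trc [ContinuousConstSMul G P] (g : G) (f : C(P, ℝ)) : C(P, ℝ) :=
  ⟨fun x => f (g • x), f.continuous.comp (continuous_const_smul g)⟩

@[simp] theorem trc_apply [ContinuousConstSMul G P] (g : G) (f : C(P, ℝ)) (x : P) :
    trc g f x = f (g • x) := rfl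

theorem al_mono {al : C(P, ℝ) →ₗ[ℝ] ℝ} (pos : ∀ f : C(P, ℝ), (∀ x, 0 ≤ f x) → 0 ≤ al f)
    {f g : C(P, ℝ)} (h : ∀ x, f x ≤ g x) : al f ≤ al g := by
  have := pos (g - f) fun x => by simpa using h x
  rw [map_sub] at this
  linarith

theorem norm_trc_le [CompactSpace P] [ContinuousConstSMul G P] (g : G) (f : C(P, ℝ)) :
    ‖trc g f‖ ≤ ‖f‖ :=
  (ContinuousMap.norm_le _ (norm_nonneg f)).2 fun x => f.norm_coe_le_norm _

/-- one small function with many disjoint translates has small mass -/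
theorem al_small [CompactSpace P] [ContinuousConstSMul G P] {ι : H →* G} {V : Set P} {M : ℕ}
    (hM : 0 < M) (n : Fin M → H)
    (hn : ∀ i j, i ≠ j → ∀ x ∈ V, ∀ x' ∈ V, ι (n i) • x ≠ ι (n j) • x')
    (f : C(P, ℝ)) (hf : ∀ x, 0 ≤ f x) (hV : ∀ x, x ∉ V → f x = 0) {δ : ℝ}
    (al : C(P, ℝ) →ₗ[ℝ] ℝ) (pos : ∀ f : C(P, ℝ), (∀ x, 0 ≤ f x) → 0 ≤ al f) (one : al 1 ≤ 1)
    (inv : ∀ i, ∀ f, |al (trc (ι (n i)) f) - al f| ≤ δ * ‖f‖) (hδ : 0 ≤ δ) :
    al f ≤ ‖f‖ / M + δ * ‖f‖ := by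
  classical
  have h1 : ∀ i, al f - δ * ‖f‖ ≤ al (trc (ι (n i))⁻¹ f) := by
    intro i
    have h := inv i (trc (ι (n i))⁻¹ f)
    have e : trc (ι (n i)) (trc (ι (n i))⁻¹ f) = f := by
      ext x; simp
    rw [e] at h
    have h2 : δ * ‖trc (ι (n i))⁻¹ f‖ ≤ δ * ‖f‖ :=
      mul_le_mul_of_nonneg_left (norm_trc_le _ _) hδ
    have h3 := (abs_le.1 h).2
    linarith
  have h2 : al (∑ i, trc (ι (n i))⁻¹ f) ≤ ‖f‖ := by
    have h3 : ∀ x, (∑ i, trc (ι (n i))⁻¹ f) x ≤ (‖f‖ • (1 : C(P, ℝ))) x := by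
      intro x
      simp only [ContinuousMap.coe_sum, Finset.sum_apply, trc_apply, ContinuousMap.coe_smul,
        ContinuousMap.coe_one, Pi.smul_apply, Pi.one_apply, smul_eq_mul, mul_one]
      by_cases hx : ∃ i, (ι (n i))⁻¹ • x ∈ V
      · obtain ⟨i, hi⟩ := hx
        rw [Finset.sum_eq_single i]
        · exact (le_abs_self _).trans (f.norm_coe_le_norm _)
        · intro j _ hj
          apply hV
          intro hjV
          refine hn i j (Ne.symm hj) _ hi _ hjV ?_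
          rw [smul_inv_smul, smul_inv_smul]
        · intro h; exact absurd (Finset.mem_univ _) h
      · push Not at hx
        rw [Finset.sum_eq_zero fun i _ => hV _ (hx i)]
        exact norm_nonneg f
    have h4 := al_mono pos h3
    rw [map_smul, smul_eq_mul] at h4
    have h5 : ‖f‖ * al 1 ≤ ‖f‖ * 1 := mul_le_mul_of_nonneg_left one (norm_nonneg f)
    linarith
  rw [map_sum] at h2
  have h6 : (M : ℝ) * (al f - δ * ‖f‖) ≤ ∑ i, al (trc (ι (n i))⁻¹ f) := by
    have := Finset.sum_le_sum fun i (_ : i ∈ (Finset.univ : Finset (Fin M))) => h1 i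
    rw [Finset.sum_const, Finset.card_univ, Fintype.card_fin, nsmul_eq_mul] at this
    exact this
  have hM' : (0 : ℝ) < M := by exact_mod_cast hM
  have h7 : al f - δ * ‖f‖ ≤ ‖f‖ / M := by
    rw [le_div_iff₀ hM']
    linarith
  linarith

/-- **Finitary concentration.** -/
theorem fs_of_disj [CompactSpace P] [T2Space P] [ContinuousConstSMul G P] {ι : H →* G}
    {N : Set H} {y : P} (hD : Disj ι N y) (k : C(P, ℝ)) (hk : ∀ x, 0 ≤ k x) (hy : k y = 0)
    {ε : ℝ} (hε : 0 < ε) :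
    ∃ F : Finset H, (∀ n ∈ F, n ∈ N) ∧ ∃ δ > 0, ∀ al : C(P, ℝ) →ₗ[ℝ] ℝ,
      (∀ f : C(P, ℝ), (∀ x, 0 ≤ f x) → 0 ≤ al f) → al 1 ≤ 1 →
      (∀ n ∈ F, ∀ f, |al (trc (ι n) f) - al f| ≤ δ * ‖f‖) → al k ≤ ε := by
  classical
  -- the compact set where `k` is not small
  obtain ⟨K0, hK0⟩ : ∃ K0 : Set P, K0 = {x | ε / 2 ≤ k x} := ⟨_, rfl⟩
  have hKc : IsCompact K0 := by
    rw [hK0]
    exact (isClosed_le continuous_const k.continuous).isCompact
  have hyK : ∀ x ∈ K0, x ≠ y := by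
    rintro x hx rfl
    rw [hK0] at hx
    have : ε / 2 ≤ k x := hx
    linarith
  choose! V hVo hVm hVn using hD
  obtain ⟨t, ht, hcov⟩ := hKc.elim_nhds_subcover V fun x hx =>
    (hVo x (hyK x hx)).mem_nhds (hVm x (hyK x hx))
  -- enumerate the finite cover
  obtain ⟨m, e⟩ : ∃ m : ℕ, Nonempty (Fin m ≃ t) := ⟨t.card, ⟨t.equivFin.symm⟩⟩
  obtain ⟨e⟩ := e
  have hcov' : K0 ⊆ ⋃ j : Fin m, V (e j) := by
    intro x hx
    obtain ⟨i, hi, hxi⟩ := Set.mem_iUnion₂.1 (hcov hx)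
    exact Set.mem_iUnion.2 ⟨e.symm ⟨i, hi⟩, by simpa using hxi⟩
  obtain ⟨f, hf1, hf2, hf3, -⟩ := exists_continuous_sum_one_of_isOpen_isCompact
    (s := fun j : Fin m => V (e j)) (fun j => hVo _ (hyK _ (ht _ (e j).2))) hKc hcov'
  -- constants
  obtain ⟨C, hC0, hC⟩ : ∃ C : ℝ, 0 < C ∧ ‖k‖ ≤ C := ⟨‖k‖ + 1, by positivity, by linarith⟩
  obtain ⟨M, hM⟩ := exists_nat_gt (4 * (m : ℝ) * C / ε)
  have hMpos : 0 < M + 1 := Nat.succ_pos _
  have hN : ∀ j : Fin m, ∃ n : Fin (M + 1) → H, (∀ i, n i ∈ N) ∧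
      ∀ i i', i ≠ i' → ∀ x ∈ V (e j), ∀ x' ∈ V (e j), ι (n i) • x ≠ ι (n i') • x' := fun j =>
    hVn _ (hyK _ (ht _ (e j).2)) (M + 1)
  choose n hnN hnV using hN
  refine ⟨Finset.univ.image (fun p : Fin m × Fin (M + 1) => n p.1 p.2), ?_,
    ε / (4 * (m + 1) * C), by positivity, ?_⟩
  · intro x hx
    obtain ⟨p, _, rfl⟩ := Finset.mem_image.1 hx
    exact hnN _ _
  intro al pos one inv
  have hkf : ∀ j, ∀ x, 0 ≤ (k * f j) x := fun j x => mul_nonneg (hk x) (hf3 j x).1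
  have hkn : ∀ j, ‖k * f j‖ ≤ C := fun j => by
    refine (ContinuousMap.norm_le _ hC0.le).2 fun x => ?_
    rw [ContinuousMap.mul_apply, norm_mul]
    have h1 : ‖k x‖ ≤ C := (k.norm_coe_le_norm x).trans hC
    have h2 : ‖f j x‖ ≤ 1 := by
      rw [Real.norm_eq_abs, abs_le]
      exact ⟨by linarith [(hf3 j x).1], (hf3 j x).2⟩
    calc ‖k x‖ * ‖f j x‖ ≤ C * 1 := mul_le_mul h1 h2 (norm_nonneg _) hC0.le
      _ = C := mul_one C
  have hδ : 0 ≤ ε / (4 * (m + 1) * C) := by positivity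
  have hsm : ∀ j, al (k * f j) ≤ C / (M + 1 : ℕ) + ε / (4 * (m + 1) * C) * C := by
    intro j
    have h := al_small (ι := ι) hMpos (n j) (hnV j) (k * f j) (hkf j) (fun x hx => by
        rw [ContinuousMap.mul_apply]
        have : f j x = 0 := by
          by_contra h0
          exact hx (hf1 j (subset_tsupport _ h0))
        rw [this, mul_zero]) al pos one
      (fun i g => inv _ (Finset.mem_image.2 ⟨(j, i), Finset.mem_univ _, rfl⟩) g) hδ
    refine h.trans (add_le_add ?_ (mul_le_mul_of_nonneg_left (hkn j) hδ))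
    exact div_le_div_of_nonneg_right (hkn j) (Nat.cast_nonneg _)
  have hle : ∀ x, k x ≤ ((ε / 2) • (1 : C(P, ℝ)) + ∑ j, k * f j) x := by
    intro x
    have hs : (∑ j, k * f j) x = ∑ j, k x * f j x := by
      simp [ContinuousMap.coe_sum, Finset.sum_apply]
    rw [ContinuousMap.add_apply, hs]
    simp only [ContinuousMap.coe_smul, ContinuousMap.coe_one, Pi.smul_apply, Pi.one_apply,
      smul_eq_mul, mul_one]
    by_cases hx : x ∈ K0
    · have h1 := hf2 hx
      have h2 : ∑ j, k x * f j x = k x := by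
        rw [← Finset.mul_sum]
        have h3 : ∑ j, f j x = 1 := by simpa [Finset.sum_apply] using h1
        rw [h3, mul_one]
      rw [h2]
      linarith
    · have h1 : k x < ε / 2 := by
        rw [hK0] at hx
        exact lt_of_not_ge hx
      have h2 : 0 ≤ ∑ j, k x * f j x :=
        Finset.sum_nonneg fun j _ => mul_nonneg (hk x) (hf3 j x).1
      linarith
  have h1 := al_mono pos hle
  rw [map_add, map_smul, map_sum, smul_eq_mul] at h1
  have h2 : ε / 2 * al 1 ≤ ε / 2 * 1 := mul_le_mul_of_nonneg_left one (by linarith)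
  have h3 : ∑ j, al (k * f j) ≤ m * (C / (M + 1 : ℕ) + ε / (4 * (m + 1) * C) * C) := by
    have := Finset.sum_le_sum fun j (_ : j ∈ (Finset.univ : Finset (Fin m))) => hsm j
    rw [Finset.sum_const, Finset.card_univ, Fintype.card_fin, nsmul_eq_mul] at this
    exact this
  have hM1 : (0 : ℝ) < ((M + 1 : ℕ) : ℝ) := by positivity
  have h4 : (m : ℝ) * (C / (M + 1 : ℕ)) ≤ ε / 4 := by
    rw [← mul_div_assoc, div_le_iff₀ hM1]
    rw [div_lt_iff₀ hε] at hM
    push_cast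
    nlinarith
  have h5 : (m : ℝ) * (ε / (4 * (m + 1) * C) * C) ≤ ε / 4 := by
    have e1 : (m : ℝ) * (ε / (4 * (m + 1) * C) * C) = ε / 4 * (m / (m + 1)) := by
      field_simp
    rw [e1]
    have h6 : (m : ℝ) / (m + 1) ≤ 1 := by
      rw [div_le_one (by positivity)]
      linarith
    calc ε / 4 * ((m : ℝ) / (m + 1)) ≤ ε / 4 * 1 :=
          mul_le_mul_of_nonneg_left h6 (by linarith)
      _ = ε / 4 := mul_one _
  have h7 : (m : ℝ) * (C / (M + 1 : ℕ) + ε / (4 * (m + 1) * C) * C) ≤ ε / 2 := by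
    rw [mul_add]; linarith
  linarith

/-- an invariant state is the evaluation at `y` -/
theorem state_eq_disj [CompactSpace P] [T2Space P] [ContinuousConstSMul G P] {ι : H →* G}
    {N : Set H} {y : P} (hD : Disj ι N y) (al : C(P, ℝ) →ₗ[ℝ] ℝ)
    (pos : ∀ f : C(P, ℝ), (∀ x, 0 ≤ f x) → 0 ≤ al f) (one : al 1 = 1)
    (inv : ∀ n ∈ N, ∀ f, al (trc (ι n) f) = al f) (k : C(P, ℝ)) : al k = k y := by
  have h0 : ∀ k : C(P, ℝ), (∀ x, 0 ≤ k x) → k y = 0 → al k = 0 := by
    intro k hk hy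
    refine le_antisymm (le_of_forall_pos_le_add fun ε hε => ?_) (pos k hk)
    obtain ⟨F, hF, δ, hδ, h⟩ := fs_of_disj hD k hk hy hε
    rw [zero_add]
    refine h al pos one.le fun n hn f => ?_
    rw [inv n (hF n hn), sub_self, abs_zero]
    positivity
  have h1 : al |k - (k y) • (1 : C(P, ℝ))| = 0 := h0 _ (fun x => by
    rw [ContinuousMap.abs_apply]; exact abs_nonneg _) (by
    rw [ContinuousMap.abs_apply]; simp)
  have h2 : al (k - (k y) • (1 : C(P, ℝ))) ≤ al |k - (k y) • (1 : C(P, ℝ))| :=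
    al_mono pos fun x => by rw [ContinuousMap.abs_apply]; exact le_abs_self _
  have h3 : al (-(k - (k y) • (1 : C(P, ℝ)))) ≤ al |k - (k y) • (1 : C(P, ℝ))| :=
    al_mono pos fun x => by
      rw [ContinuousMap.abs_apply, ContinuousMap.neg_apply]; exact neg_le_abs _
  rw [h1] at h2 h3
  rw [map_neg] at h3
  rw [map_sub, map_smul, one, smul_eq_mul, mul_one] at h2 h3
  linarith

end Vale.Agent.P092.H715.Disj
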