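import Vale.Agent.P092.SD.Defs
import Vale.Agent.P092.H142.Fam

/-!
helper715, P092, Team D, block [XC-6] of the cross-leg commutation: geometry over `ℝ`.
Part A: domination of a function by the translates of one function, bounded overlap.
Part B: properness for `SL_3`, the regular unipotent element.
-/

set_option linter.all false

open scoped Pointwise LinearAlgebra.Projectivization
open Filter Topology Set

namespace Vale.Agent.P092.H715.Xc6

/-! ### Part A -/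

section dom

variable {G P : Type*} [Group G] [TopologicalSpace G] [TopologicalSpace P] [MulAction G P]
  [ContinuousSMul G P]

/-- domination: `f ≤ g.k` for all `g` in a compact set, `k` the supremum of the translates -/
theorem exists_dom {C : Set G} (hC : IsCompact C) (f : C(P, ℝ)) (hf : ∀ x, 0 ≤ f x) :
    ∃ k : C(P, ℝ), (∀ x, 0 ≤ k x) ∧ (∀ g ∈ C, ∀ ξ, f ξ ≤ k (g⁻¹ • ξ)) ∧
      (∀ η, (∀ g ∈ C, f (g • η) = 0) → k η = 0) ∧
      (∀ r : ℝ, 0 ≤ r → (∀ ξ, f ξ ≤ r) → ∀ η, k η ≤ r) := by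
  rcases C.eq_empty_or_nonempty with rfl | hne
  · exact ⟨0, fun _ => le_rfl, fun g hg => absurd hg (Set.notMem_empty g), fun _ _ => rfl,
      fun r hr _ _ => hr⟩
  have hc : Continuous (fun p : P × G => f (p.2 • p.1)) :=
    f.continuous.comp (continuous_snd.smul continuous_fst)
  have hk : Continuous fun η : P => sSup ((fun g : G => f (g • η)) '' C) :=
    IsCompact.continuous_sSup (f := fun (η : P) (g : G) => f (g • η)) hC hc
  have hbdd : ∀ η, BddAbove ((fun g : G => f (g • η)) '' C) := fun η =>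
    (hC.image (f.continuous.comp (continuous_id.smul continuous_const))).bddAbove
  refine ⟨⟨_, hk⟩, fun η => ?_, fun g hg ξ => ?_, fun η h => ?_, fun r hr h η => ?_⟩
  · obtain ⟨g, hg⟩ := hne
    exact (hf _).trans (le_csSup (hbdd η) ⟨g, hg, rfl⟩)
  · have := le_csSup (hbdd (g⁻¹ • ξ)) (⟨g, hg, rfl⟩ : f (g • g⁻¹ • ξ) ∈
      (fun g' : G => f (g' • g⁻¹ • ξ)) '' C)
    rwa [smul_inv_smul] at this
  · refine le_antisymm (csSup_le (hne.image _) ?_) ?_
    · rintro _ ⟨g, hg, rfl⟩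
      exact (h g hg).le
    · obtain ⟨g, hg⟩ := hne
      exact (hf _).trans (le_csSup (hbdd η) ⟨g, hg, rfl⟩)
  · refine csSup_le (hne.image _) ?_
    rintro _ ⟨g, hg, rfl⟩
    exact h _

/-- the squared oscillation, uniformly on a compact set -/
theorem exists_osc {C : Set G} (hC : IsCompact C) (f : C(P, ℂ)) (y : P) :
    ∃ k : C(P, ℝ), (∀ x, 0 ≤ k x) ∧ k y = 0 ∧
      (∀ g ∈ C, ∀ η, ‖f (g • η) - f (g • y)‖ ^ 2 ≤ k η) ∧
      (∀ r : ℝ, 0 ≤ r → (∀ g ∈ C, ∀ η, ‖f (g • η) - f (g • y)‖ ^ 2 ≤ r) → ∀ η, k η ≤ r) := by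
  rcases C.eq_empty_or_nonempty with rfl | hne
  · exact ⟨0, fun _ => le_rfl, rfl, fun g hg => absurd hg (Set.notMem_empty g),
      fun r hr _ _ => hr⟩
  have hc : Continuous (fun p : P × G => ‖f (p.2 • p.1) - f (p.2 • y)‖ ^ 2) :=
    ((f.continuous.comp (continuous_snd.smul continuous_fst)).sub
      (f.continuous.comp (continuous_snd.smul continuous_const))).norm.pow 2
  have hk : Continuous fun η : P => sSup ((fun g : G => ‖f (g • η) - f (g • y)‖ ^ 2) '' C) :=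
    IsCompact.continuous_sSup (f := fun (η : P) (g : G) => ‖f (g • η) - f (g • y)‖ ^ 2) hC hc
  have hbdd : ∀ η, BddAbove ((fun g : G => ‖f (g • η) - f (g • y)‖ ^ 2) '' C) := fun η =>
    (hC.image (((f.continuous.comp (continuous_id.smul continuous_const)).sub
      (f.continuous.comp (continuous_id.smul continuous_const))).norm.pow 2)).bddAbove
  refine ⟨⟨_, hk⟩, fun η => ?_, ?_, fun g hg η => ?_, fun r hr h η => ?_⟩
  · obtain ⟨g, hg⟩ := hne
    exact (sq_nonneg _).trans (le_csSup (hbdd η) ⟨g, hg, rfl⟩)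
  · refine le_antisymm (csSup_le (hne.image _) ?_) ?_
    · rintro _ ⟨g, hg, rfl⟩
      simp
    · obtain ⟨g, hg⟩ := hne
      exact (sq_nonneg _).trans (le_csSup (hbdd y) ⟨g, hg, rfl⟩)
  · exact le_csSup (hbdd η) ⟨g, hg, rfl⟩
  · refine csSup_le (hne.image _) ?_
    rintro _ ⟨g, hg, rfl⟩
    exact h g hg η

/-- the same with a neighbourhood of the compact set: `f` vanishes on an open set which contains
`B • y` -/
theorem exists_nhd_dom [IsTopologicalGroup G] [LocallyCompactSpace G] {B : Set G}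
    (hB : IsCompact B) (f : C(P, ℝ)) (hf : ∀ x, 0 ≤ f x) (y : P) {V : Set P} (hV : IsOpen V)
    (hBV : ∀ b ∈ B, b • y ∈ V) (hfV : ∀ x ∈ V, f x = 0) :
    ∃ O ∈ 𝓝 (1 : G), IsCompact O ∧ O⁻¹ = O ∧ IsCompact (B * O) ∧
      ∃ k : C(P, ℝ), (∀ x, 0 ≤ k x) ∧ (∀ g ∈ B * O, ∀ ξ, f ξ ≤ k (g⁻¹ • ξ)) ∧ k y = 0 ∧
        (∀ᶠ x in 𝓝 y, k x = 0) ∧ (∀ r : ℝ, 0 ≤ r → (∀ ξ, f ξ ≤ r) → ∀ η, k η ≤ r) := by
  -- a neighbourhood `O` with `B * O • y ⊆ V`
  have hS : IsOpen {p : G × G | (p.1 * p.2) • y ∈ V} :=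
    hV.preimage ((continuous_fst.mul continuous_snd).smul continuous_const)
  have hBs : B ×ˢ {(1 : G)} ⊆ {p : G × G | (p.1 * p.2) • y ∈ V} := by
    rintro ⟨b, o⟩ ⟨hb, ho⟩
    have ho' : o = 1 := ho
    subst ho'
    change (b * 1) • y ∈ V
    rw [mul_one]
    exact hBV b hb
  obtain ⟨U1, U2, hU1, hU2, hBU, h1U, hsub⟩ :=
    generalized_tube_lemma hB isCompact_singleton hS hBs
  obtain ⟨K, hK, hKc, hKU⟩ : ∃ K ∈ 𝓝 (1 : G), IsCompact K ∧ K ⊆ U2 := by
    obtain ⟨K, hK, hKU, hKc⟩ := local_compact_nhds (hU2.mem_nhds (h1U rfl))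
    exact ⟨K, hK, hKc, hKU⟩
  have hKc' : IsCompact (K ∪ K⁻¹) := hKc.union hKc.inv
  obtain ⟨K', hK', hKc2, hKU', hKi⟩ : ∃ K' ∈ 𝓝 (1 : G), IsCompact K' ∧ K' ⊆ U2 ∧ K'⁻¹ = K' := by
    obtain ⟨L, hL, hLcl, hLs, hLK⟩ := exists_closed_nhds_one_inv_eq_mul_subset
      (Filter.inter_mem hK (interior_mem_nhds.2 hK))
    refine ⟨L, hL, ?_, ?_, hLs⟩
    · refine hKc.of_isClosed_subset hLcl ?_ |>.image continuous_id |> fun h => by simpa using h
      intro x hx
      have h1 : x * 1 ∈ L * L := Set.mul_mem_mul hx (mem_of_mem_nhds hL)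
      rw [mul_one] at h1
      exact (hLK h1).1
    · intro x hx
      have h1 : x * 1 ∈ L * L := Set.mul_mem_mul hx (mem_of_mem_nhds hL)
      rw [mul_one] at h1
      exact hKU (hLK h1).1
  have hBO : IsCompact (B * K') := hB.mul hKc2
  obtain ⟨k, k0, k1, k2, k3⟩ := exists_dom hBO f hf
  have hin : ∀ g ∈ B * K', g • y ∈ V := by
    rintro _ ⟨b, hb, o, ho, rfl⟩
    exact hsub (show (b, o) ∈ U1 ×ˢ U2 from ⟨hBU hb, hKU' ho⟩)
  refine ⟨K', hK', hKc2, hKi, hBO, k, k0, k1, ?_, ?_, k3⟩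
  · exact k2 y fun g hg => hfV _ (hin g hg)
  · -- tube lemma
    have hT : IsOpen {p : G × P | p.1 • p.2 ∈ V} := hV.preimage (continuous_fst.smul continuous_snd)
    have hT2 : (B * K') ×ˢ {y} ⊆ {p : G × P | p.1 • p.2 ∈ V} := by
      rintro ⟨g, x⟩ ⟨hg, hx⟩
      have hx' : x = y := hx
      subst hx'
      exact hin g hg
    obtain ⟨W1, W2, hW1, hW2, hgW, hyW, hsub2⟩ :=
      generalized_tube_lemma hBO isCompact_singleton hT hT2
    filter_upwards [hW2.mem_nhds (hyW rfl)] with x hx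
    exact k2 x fun g hg => hfV _ (hsub2 (show (g, x) ∈ W1 ×ˢ W2 from ⟨hgW hg, hx⟩))

end dom

section overlap

variable {G Γ : Type*} [Group G] [TopologicalSpace G] [IsTopologicalGroup G] [Group Γ]

/-- bounded overlap of the translates of a compact set under a proper group -/
theorem overlap (q : Γ →* G) (hq : ∀ C : Set G, IsCompact C → {γ | q γ ∈ C}.Finite)
    {C : Set G} (hC : IsCompact C) :
    ∃ N : ℕ, ∀ g : G, {γ | q γ * g ∈ C}.Finite ∧ {γ | q γ * g ∈ C}.ncard ≤ N := by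
  have hCC : IsCompact (C * C⁻¹) := hC.mul hC.inv
  have hF := hq _ hCC
  refine ⟨{γ | q γ ∈ C * C⁻¹}.ncard, fun g => ?_⟩
  rcases Set.eq_empty_or_nonempty {γ | q γ * g ∈ C} with h | ⟨γ0, h0⟩
  · rw [h]; simp
  have hsub : (fun γ => γ * γ0⁻¹) '' {γ | q γ * g ∈ C} ⊆ {γ | q γ ∈ C * C⁻¹} := by
    rintro _ ⟨γ, hγ, rfl⟩
    have h1 : q (γ * γ0⁻¹) = (q γ * g) * (q γ0 * g)⁻¹ := by
      rw [map_mul, map_inv]; group
    change q (γ * γ0⁻¹) ∈ C * C⁻¹
    rw [h1]
    exact Set.mul_mem_mul hγ (Set.inv_mem_inv.2 h0)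
  have hinj : Function.Injective fun γ => γ * γ0⁻¹ := mul_left_injective _
  have hfin : {γ | q γ * g ∈ C}.Finite := Set.Finite.of_finite_image (hF.subset hsub)
    hinj.injOn
  refine ⟨hfin, ?_⟩
  rw [← Set.ncard_image_of_injective _ hinj]
  exact Set.ncard_le_ncard hsub hF

/-- bounded overlap as a sum of indicators -/
theorem overlap_tsum (q : Γ →* G) (hq : ∀ C : Set G, IsCompact C → {γ | q γ ∈ C}.Finite)
    {C : Set G} (hC : IsCompact C) :
    ∃ N : ℕ, ∀ g : G, ∑' γ, C.indicator (1 : G → ENNReal) (q γ * g) ≤ N := by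
  classical
  obtain ⟨N, hN⟩ := overlap q hq hC
  refine ⟨N, fun g => ?_⟩
  have e : (fun γ => C.indicator (1 : G → ENNReal) (q γ * g)) =
      {γ | q γ * g ∈ C}.indicator (1 : Γ → ENNReal) := by
    funext γ
    by_cases h : q γ * g ∈ C
    · rw [Set.indicator_of_mem h, Set.indicator_of_mem (show γ ∈ {γ | q γ * g ∈ C} from h)]
      rfl
    · rw [Set.indicator_of_notMem h, Set.indicator_of_notMem (show γ ∉ {γ | q γ * g ∈ C} from h)]
  rw [e, ← tsum_subtype]
  have := (hN g).1.fintype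
  rw [tsum_fintype]
  simp only [Pi.one_apply, Finset.sum_const, Finset.card_univ, nsmul_eq_mul, mul_one]
  have h2 := (hN g).2
  rw [← Nat.card_coe_set_eq, Nat.card_eq_fintype_card] at h2
  exact_mod_cast h2

/-- the same for right translates -/
theorem overlap' (q : Γ →* G) (hq : ∀ C : Set G, IsCompact C → {γ | q γ ∈ C}.Finite)
    {C : Set G} (hC : IsCompact C) :
    ∃ N : ℕ, ∀ g : G, {γ | g * q γ ∈ C}.Finite ∧ {γ | g * q γ ∈ C}.ncard ≤ N := by
  obtain ⟨N, hN⟩ := overlap q hq (hC.inv)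
  refine ⟨N, fun g => ?_⟩
  have e : {γ | g * q γ ∈ C} = (fun γ => γ⁻¹) '' {γ | q γ * g⁻¹ ∈ C⁻¹} := by
    ext γ
    simp only [Set.mem_ofPred_eq, Set.mem_image, Set.mem_inv, mul_inv_rev, inv_inv]
    constructor
    · intro h
      exact ⟨γ⁻¹, by simpa using h, inv_inv γ⟩
    · rintro ⟨γ', h, rfl⟩
      simpa using h
  rw [e]
  exact ⟨(hN g⁻¹).1.image _, by
    rw [Set.ncard_image_of_injective _ inv_injective]; exact (hN g⁻¹).2⟩

end overlap

/-! ### Part B -/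

section sl3

open Vale.Agent.P092.SD Vale.Agent.P092.H820

variable {k : Type} [NontriviallyNormedField k] {Γ : Type*} [Group Γ]

/-- properness for compact sets from properness for norms -/
theorem fin_compact (q : Γ →* G3 k) (hfin : ∀ r : ℝ, {γ | ∀ i j, ‖(q γ).1 i j‖ ≤ r}.Finite)
    {C : Set (G3 k)} (hC : IsCompact C) : {γ | q γ ∈ C}.Finite := by
  have hb : ∀ i j : Fin 3, ∃ r : ℝ, ∀ g ∈ C, ‖g.1 i j‖ ≤ r := by
    intro i j
    have hv : Continuous (Subtype.val : G3 k → Matrix (Fin 3) (Fin 3) k) :=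
      continuous_induced_dom
    have hc : Continuous fun g : G3 k => ‖g.1 i j‖ :=
      ((continuous_apply j).comp ((continuous_apply i).comp hv)).norm
    obtain ⟨r, hr⟩ := (hC.image hc).bddAbove
    exact ⟨r, fun g hg => hr ⟨g, hg, rfl⟩⟩
  choose r hr using hb
  obtain ⟨R, hR⟩ : ∃ R : ℝ, ∀ i j, r i j ≤ R :=
    ⟨∑ i, ∑ j, |r i j|, fun i j => (le_abs_self _).trans
      ((Finset.single_le_sum (f := fun j => |r i j|) (fun _ _ => abs_nonneg _)
        (Finset.mem_univ j)).trans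
        (Finset.single_le_sum (f := fun i => ∑ j, |r i j|)
          (fun _ _ => Finset.sum_nonneg fun _ _ => abs_nonneg _) (Finset.mem_univ i)))⟩
  refine (hfin R).subset fun γ hγ i j => (hr i j _ hγ).trans (hR i j)

/-- convergence in the projective plane from convergence of representatives -/
theorem pt_tendsto {v : ℕ → Fin 3 → k} (hv : ∀ n, v n ≠ 0) {w : Fin 3 → k} (hw : w ≠ 0)
    (h : Tendsto v atTop (𝓝 w)) : Tendsto (fun n => pt k (v n) (hv n)) atTop (𝓝 (pt k w hw)) := by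
  have h1 : Tendsto (fun n => (⟨v n, hv n⟩ : {v : Fin 3 → k // v ≠ 0})) atTop (𝓝 ⟨w, hw⟩) :=
    tendsto_subtype_rng.2 h
  exact (pj_continuous.tendsto _).comp h1

theorem pt_smul (g : G3 k) {v : Fin 3 → k} (hv : v ≠ 0) :
    g • pt k v hv = pt k (g.1.mulVec v) ((smul_ne_zero_iff_ne g).2 hv) := rfl

theorem pt_scale (c : k) (hc : c ≠ 0) {v : Fin 3 → k} (hv : v ≠ 0) :
    pt k (c • v) (smul_ne_zero hc hv) = pt k v hv :=
  (pj_eq ⟨c • v, smul_ne_zero hc hv⟩ ⟨v, hv⟩).2 ⟨Units.mk0 c hc, rfl⟩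

/-- the regular unipotent element -/
def rg : G3 ℝ := ⟨!![1, 1, 0; 0, 1, 1; 0, 0, 1], by
  rw [Matrix.det_fin_three]
  simp [Matrix.of_apply]⟩

theorem rg_pow (j : ℕ) : (rg ^ j).1 = !![1, (j : ℝ), (j : ℝ) * (j - 1) / 2; 0, 1, (j : ℝ); 0, 0, 1] := by
  induction j with
  | zero =>
    ext a b
    fin_cases a <;> fin_cases b <;> simp
  | succ n ih =>
    rw [pow_succ, Matrix.SpecialLinearGroup.coe_mul, ih]
    ext a b
    fin_cases a <;> fin_cases b <;>
      simp [rg, Matrix.mul_apply, Fin.sum_univ_three] <;> ring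

theorem rg_vec (j : ℕ) (v : Fin 3 → ℝ) : (rg ^ j).1.mulVec v =
    ![v 0 + j * v 1 + (j : ℝ) * (j - 1) / 2 * v 2, v 1 + j * v 2, v 2] := by
  rw [rg_pow]
  ext a
  fin_cases a <;> simp [Matrix.mulVec, dotProduct, Fin.sum_univ_three]

theorem ept0_eq {c : ℝ} (hc : c ≠ 0) (h : (![c, 0, 0] : Fin 3 → ℝ) ≠ 0) :
    pt ℝ ![c, 0, 0] h = ept ℝ 0 := by
  have e : (![c, 0, 0] : Fin 3 → ℝ) = c • (Pi.single 0 1 : Fin 3 → ℝ) := by
    ext a
    fin_cases a <;> simp
  have h2 : (Pi.single 0 1 : Fin 3 → ℝ) ≠ 0 := by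
    intro h
    have := congrFun h 0
    simp at this
  have := pt_scale c hc h2
  change _ = pt ℝ (Pi.single 0 1 : Fin 3 → ℝ) h2
  rw [← this]
  congr 1

theorem inv_nat : Tendsto (fun j : ℕ => ((j : ℝ))⁻¹) atTop (𝓝 0) :=
  tendsto_inv_atTop_zero.comp tendsto_natCast_atTop_atTop

/-- all points converge to the point `[e_0]` under the powers of the regular unipotent -/
theorem rg_lim (ξ : PP ℝ) : Tendsto (fun j : ℕ => rg ^ j • ξ) atTop (𝓝 (ept ℝ 0)) := by
  obtain ⟨⟨v, hv⟩, rfl⟩ := pj_surj (k := ℝ) (ι := Fin 3) ξ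
  change Tendsto (fun j : ℕ => rg ^ j • pt ℝ v hv) atTop (𝓝 (ept ℝ 0))
  by_cases h2 : v 2 = 0
  · by_cases h1 : v 1 = 0
    · have h0 : v 0 ≠ 0 := by
        intro h0
        apply hv
        ext a
        fin_cases a
        · exact h0
        · exact h1
        · exact h2
      have e : ∀ j : ℕ, rg ^ j • pt ℝ v hv = ept ℝ 0 := by
        intro j
        rw [pt_smul]
        have e1 : (rg ^ j).1.mulVec v = ![v 0, 0, 0] := by
          rw [rg_vec, h1, h2]
          simp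
        have hne : (![v 0, 0, 0] : Fin 3 → ℝ) ≠ 0 := e1 ▸ (smul_ne_zero_iff_ne (rg ^ j)).2 hv
        rw [← ept0_eq h0 hne]
        congr 1
      simp only [e]
      exact tendsto_const_nhds
    · -- divide by `j`
      have hne : (![v 1, 0, 0] : Fin 3 → ℝ) ≠ 0 := by
        intro h
        exact h1 (by simpa using congrFun h 0)
      rw [← ept0_eq h1 hne]
      have hj : ∀ j : ℕ, ((j : ℝ) + 1)⁻¹ ≠ 0 := fun j => inv_ne_zero (by positivity)
      have hw : ∀ j : ℕ, (((j + 1 : ℕ) : ℝ))⁻¹ • ((rg ^ (j + 1)).1.mulVec v) ≠ 0 := fun j =>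
        smul_ne_zero (inv_ne_zero (by positivity)) ((smul_ne_zero_iff_ne (rg ^ (j + 1))).2 hv)
      have hl : Tendsto (fun j : ℕ => (((j + 1 : ℕ) : ℝ))⁻¹ • ((rg ^ (j + 1)).1.mulVec v)) atTop
          (𝓝 ![v 1, 0, 0]) := by
        have hinv := inv_nat.comp (tendsto_add_atTop_nat 1)
        rw [tendsto_pi_nhds]
        intro a
        fin_cases a
        · have e : (fun j : ℕ => ((((j + 1 : ℕ) : ℝ))⁻¹ • ((rg ^ (j + 1)).1.mulVec v)) 0) =
              fun j : ℕ => (((j + 1 : ℕ) : ℝ))⁻¹ * v 0 + v 1 := by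
            funext j
            rw [rg_vec, h2]
            have : (((j + 1 : ℕ) : ℝ)) ≠ 0 := by positivity
            simp only [Pi.smul_apply, Matrix.cons_val_zero, smul_eq_mul, mul_zero, add_zero]
            field_simp
          have h3 := (hinv.mul_const (v 0)).add_const (v 1)
          simp only [zero_mul, zero_add] at h3
          exact (e ▸ h3 : _)
        · have e : (fun j : ℕ => ((((j + 1 : ℕ) : ℝ))⁻¹ • ((rg ^ (j + 1)).1.mulVec v)) 1) =
              fun j : ℕ => (((j + 1 : ℕ) : ℝ))⁻¹ * v 1 := by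
            funext j
            rw [rg_vec, h2]
            simp only [Pi.smul_apply, Matrix.cons_val_one, Matrix.cons_val_zero, smul_eq_mul,
              mul_zero, add_zero]
          have h3 := hinv.mul_const (v 1)
          rw [zero_mul] at h3
          exact (e ▸ h3 : _)
        · have e : (fun j : ℕ => ((((j + 1 : ℕ) : ℝ))⁻¹ • ((rg ^ (j + 1)).1.mulVec v)) 2) =
              fun j : ℕ => (0 : ℝ) := by
            funext j
            rw [rg_vec, h2]
            simp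
          change Tendsto (fun j : ℕ => ((((j + 1 : ℕ) : ℝ))⁻¹ • ((rg ^ (j + 1)).1.mulVec v)) 2)
            atTop (𝓝 0)
          rw [e]
          exact tendsto_const_nhds
      have h4 := pt_tendsto hw hne hl
      rw [← tendsto_add_atTop_iff_nat 1]
      refine h4.congr fun j => ?_
      rw [pt_smul, pt_scale _ (inv_ne_zero (by positivity))]
  · -- divide by `j ^ 2 / 2`
    have hne : (![v 2, 0, 0] : Fin 3 → ℝ) ≠ 0 := by
      intro h
      exact h2 (by simpa using congrFun h 0)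
    rw [← ept0_eq h2 hne]
    have hs : ∀ j : ℕ, 2 * (((j + 1 : ℕ) : ℝ))⁻¹ ^ 2 ≠ 0 := fun j => by positivity
    have hw : ∀ j : ℕ, (2 * (((j + 1 : ℕ) : ℝ))⁻¹ ^ 2) • ((rg ^ (j + 1)).1.mulVec v) ≠ 0 :=
      fun j => smul_ne_zero (hs j) ((smul_ne_zero_iff_ne (rg ^ (j + 1))).2 hv)
    have hl : Tendsto (fun j : ℕ => (2 * (((j + 1 : ℕ) : ℝ))⁻¹ ^ 2) •
        ((rg ^ (j + 1)).1.mulVec v)) atTop (𝓝 ![v 2, 0, 0]) := by
      have hinv := inv_nat.comp (tendsto_add_atTop_nat 1)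
      rw [tendsto_pi_nhds]
      intro a
      fin_cases a
      · have e : (fun j : ℕ => ((2 * (((j + 1 : ℕ) : ℝ))⁻¹ ^ 2) •
            ((rg ^ (j + 1)).1.mulVec v)) 0) =
            fun j : ℕ => 2 * (((j + 1 : ℕ) : ℝ))⁻¹ * (((j + 1 : ℕ) : ℝ))⁻¹ * v 0 +
              2 * (((j + 1 : ℕ) : ℝ))⁻¹ * v 1 + (1 - (((j + 1 : ℕ) : ℝ))⁻¹) * v 2 := by
          funext j
          rw [rg_vec]
          have : (((j + 1 : ℕ) : ℝ)) ≠ 0 := by positivity
          simp only [Pi.smul_apply, Matrix.cons_val_zero, smul_eq_mul]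
          field_simp
        have h3 := ((((hinv.const_mul 2).mul hinv).mul_const (v 0)).add
          ((hinv.const_mul 2).mul_const (v 1))).add ((hinv.const_sub 1).mul_const (v 2))
        simp only [mul_zero, zero_mul, zero_add, sub_zero, one_mul] at h3
        exact (e ▸ h3 : _)
      · have e : (fun j : ℕ => ((2 * (((j + 1 : ℕ) : ℝ))⁻¹ ^ 2) •
            ((rg ^ (j + 1)).1.mulVec v)) 1) =
            fun j : ℕ => 2 * (((j + 1 : ℕ) : ℝ))⁻¹ * (((j + 1 : ℕ) : ℝ))⁻¹ * v 1 +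
              2 * (((j + 1 : ℕ) : ℝ))⁻¹ * v 2 := by
          funext j
          rw [rg_vec]
          have : (((j + 1 : ℕ) : ℝ)) ≠ 0 := by positivity
          simp only [Pi.smul_apply, Matrix.cons_val_one, Matrix.cons_val_zero, smul_eq_mul]
          field_simp
        have h3 := (((hinv.const_mul 2).mul hinv).mul_const (v 1)).add
          ((hinv.const_mul 2).mul_const (v 2))
        simp only [mul_zero, zero_mul, zero_add] at h3
        exact (e ▸ h3 : _)
      · have e : (fun j : ℕ => ((2 * (((j + 1 : ℕ) : ℝ))⁻¹ ^ 2) •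
            ((rg ^ (j + 1)).1.mulVec v)) 2) =
            fun j : ℕ => 2 * (((j + 1 : ℕ) : ℝ))⁻¹ * (((j + 1 : ℕ) : ℝ))⁻¹ * v 2 := by
          funext j
          rw [rg_vec]
          have : (((j + 1 : ℕ) : ℝ)) ≠ 0 := by positivity
          simp only [Pi.smul_apply, Matrix.cons_val, smul_eq_mul]
          field_simp
        have h3 := ((hinv.const_mul 2).mul hinv).mul_const (v 2)
        simp only [mul_zero, zero_mul] at h3
        change Tendsto (fun j : ℕ => ((2 * (((j + 1 : ℕ) : ℝ))⁻¹ ^ 2) •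
            ((rg ^ (j + 1)).1.mulVec v)) 2) atTop (𝓝 0)
        exact (e ▸ h3 : _)
    have h4 := pt_tendsto hw hne hl
    rw [← tendsto_add_atTop_iff_nat 1]
    refine h4.congr fun j => ?_
    rw [pt_smul, pt_scale _ (hs j)]

/-- every point is the limit of all points under the powers of a (unipotent) element fixing it -/
theorem exists_rg (y : PP ℝ) : ∃ u : G3 ℝ, u • y = y ∧
    ∀ ξ : PP ℝ, Tendsto (fun j : ℕ => u ^ j • ξ) atTop (𝓝 y) := by
  obtain ⟨g, rfl⟩ := H142.trans_pt y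
  have hlim : ∀ ξ : PP ℝ, Tendsto (fun j : ℕ => (g * rg * g⁻¹) ^ j • ξ) atTop
      (𝓝 (g • ept ℝ 0)) := by
    intro ξ
    have e : ∀ j : ℕ, (g * rg * g⁻¹) ^ j • ξ = g • (rg ^ j • (g⁻¹ • ξ)) := by
      intro j
      rw [conj_pow, mul_smul, mul_smul]
    simp only [e]
    exact ((continuous_const_smul g).tendsto _).comp (rg_lim (g⁻¹ • ξ))
  refine ⟨g * rg * g⁻¹, ?_, hlim⟩
  have h1 := hlim (g • ept ℝ 0)
  have h2 : Tendsto (fun j : ℕ => (g * rg * g⁻¹) ^ (j + 1) • (g • ept ℝ 0)) atTop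
      (𝓝 (g • ept ℝ 0)) := h1.comp (tendsto_add_atTop_nat 1)
  have h3 : Tendsto (fun j : ℕ => (g * rg * g⁻¹) ^ (j + 1) • (g • ept ℝ 0)) atTop
      (𝓝 ((g * rg * g⁻¹) • (g • ept ℝ 0))) := by
    have := ((continuous_const_smul (g * rg * g⁻¹)).tendsto _).comp h1
    refine this.congr fun j => ?_
    rw [pow_succ', mul_smul]
    rfl
  exact tendsto_nhds_unique h3 h2

theorem tau_tau (g : G3 ℝ) : tau ℝ (tau ℝ g) = g := by
  apply Subtype.ext
  change (((tau ℝ g)⁻¹).1).transpose = g.1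
  rw [← map_inv]
  change ((((g⁻¹)⁻¹).1).transpose).transpose = g.1
  rw [inv_inv, Matrix.transpose_transpose]

/-- the same for the lines -/
theorem exists_rg_tau (y : PP ℝ) : ∃ u : G3 ℝ, tau ℝ u • y = y ∧
    ∀ ξ : PP ℝ, Tendsto (fun j : ℕ => tau ℝ (u ^ j) • ξ) atTop (𝓝 y) := by
  obtain ⟨u, h1, h2⟩ := exists_rg y
  refine ⟨tau ℝ u, ?_, fun ξ => ?_⟩
  · rw [tau_tau]; exact h1
  · have e : ∀ j : ℕ, tau ℝ ((tau ℝ u) ^ j) = u ^ j := fun j => by rw [map_pow, tau_tau]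
    simp only [e]
    exact h2 ξ

end sl3

end Vale.Agent.P092.H715.Xc6
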