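import Mathlib
import Vale.Agent.P092.H885.KDefs

/-!
P092 (helper715): operators defined on a total family; Kazhdan pairs and families of vectors with
an invariant Gram matrix.
-/

set_option linter.all false

open scoped InnerProductSpace
open Filter Topology ContinuousLinearMap

namespace Vale.Agent.P092.H715

open Vale.Agent.P092.H885

section ext

variable {ι E F : Type} [NormedAddCommGroup E] [InnerProductSpace ℂ E] [CompleteSpace E]
  [NormedAddCommGroup F] [InnerProductSpace ℂ F] [CompleteSpace F]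

/-- The family `v` is total. -/
def Tot (v : ι → E) : Prop := ∀ x : E, (∀ i, ⟪v i, x⟫_ℂ = 0) → x = 0

theorem Tot.dense {v : ι → E} (hv : Tot v) : DenseRange (Finsupp.linearCombination ℂ v) := by
  have h1 : (LinearMap.range (Finsupp.linearCombination ℂ v)).topologicalClosure = ⊤ := by
    rw [Submodule.topologicalClosure_eq_top_iff, Submodule.eq_bot_iff]
    intro x hx
    refine hv x fun i => ?_
    rw [Submodule.mem_orthogonal] at hx
    exact hx _ ⟨Finsupp.single i 1, by simp⟩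
  have h2 := Submodule.dense_iff_topologicalClosure_eq_top.mpr h1
  exact h2

/-- Two continuous linear maps which agree on a total family are equal. -/
theorem Tot.ext {v : ι → E} (hv : Tot v) {S T : E →L[ℂ] F} (h : ∀ i, S (v i) = T (v i)) :
    S = T := by
  ext1 x
  refine ext_inner_left ℂ fun y => ?_
  have h1 : adjoint S y - adjoint T y = 0 := by
    refine hv _ fun i => ?_
    rw [inner_sub_right, adjoint_inner_right, adjoint_inner_right, h, sub_self]
  have h2 : adjoint S y = adjoint T y := sub_eq_zero.mp h1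
  rw [← adjoint_inner_left, ← adjoint_inner_left, h2]

/-- Extension of a contraction from a total family. -/
theorem Tot.exists_map {v : ι → E} (hv : Tot v) (w : ι → F)
    (h : ∀ c : ι →₀ ℂ, ‖Finsupp.linearCombination ℂ w c‖ ≤ ‖Finsupp.linearCombination ℂ v c‖) :
    ∃ S : E →L[ℂ] F, (∀ i, S (v i) = w i) ∧ ∀ x, ‖S x‖ ≤ ‖x‖ := by
  have h1 : ∀ c : ι →₀ ℂ, ‖Finsupp.linearCombination ℂ w c‖ ≤
      1 * ‖Finsupp.linearCombination ℂ v c‖ := fun c => by rw [one_mul]; exact h c
  refine ⟨(Finsupp.linearCombination ℂ w).extendOfNorm (Finsupp.linearCombination ℂ v),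
    fun i => ?_, fun x => ?_⟩
  · have h2 := LinearMap.extendOfNorm_eq (f := Finsupp.linearCombination ℂ w)
      (e := Finsupp.linearCombination ℂ v) hv.dense ⟨1, h1⟩ (Finsupp.single i 1)
    simpa using h2
  · have h2 := LinearMap.norm_extendOfNorm_apply_le hv.dense 1 h1 x
    rwa [one_mul] at h2

theorem norm_lc_sq (v : ι → E) (c : ι →₀ ℂ) : ‖Finsupp.linearCombination ℂ v c‖ ^ 2 =
    (c.sum (fun i a => c.sum (fun j b => (starRingEnd ℂ) a * b * ⟪v i, v j⟫_ℂ)) : ℂ).re := by
  rw [← inner_self_eq_norm_sq (𝕜 := ℂ), Finsupp.linearCombination_apply]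
  have h1 : ⟪(c.sum fun i a => a • v i), (c.sum fun i a => a • v i)⟫_ℂ =
      (c.sum (fun i a => c.sum (fun j b => (starRingEnd ℂ) a * b * ⟪v i, v j⟫_ℂ)) : ℂ) := by
    simp only [Finsupp.sum]
    rw [sum_inner]
    refine Finset.sum_congr rfl fun i _ => ?_
    rw [inner_sum]
    refine Finset.sum_congr rfl fun j _ => ?_
    rw [inner_smul_left, inner_smul_right]
    ring
  rw [h1]
  rfl

theorem norm_lc_eq {v : ι → E} {w : ι → F} (h : ∀ i j, ⟪v i, v j⟫_ℂ = ⟪w i, w j⟫_ℂ)
    (c : ι →₀ ℂ) : ‖Finsupp.linearCombination ℂ w c‖ = ‖Finsupp.linearCombination ℂ v c‖ := by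
  have h1 : ‖Finsupp.linearCombination ℂ w c‖ ^ 2 = ‖Finsupp.linearCombination ℂ v c‖ ^ 2 := by
    rw [norm_lc_sq, norm_lc_sq]
    simp only [h]
  exact (pow_left_inj₀ (norm_nonneg _) (norm_nonneg _) two_ne_zero).mp h1

/-- Extension of an isometry from a total family. -/
theorem Tot.exists_iso {v : ι → E} (hv : Tot v) (w : ι → F)
    (h : ∀ i j, ⟪w i, w j⟫_ℂ = ⟪v i, v j⟫_ℂ) :
    ∃ S : E →L[ℂ] F, (∀ i, S (v i) = w i) ∧ ∀ x y, ⟪S x, S y⟫_ℂ = ⟪x, y⟫_ℂ := by
  obtain ⟨S, hS, -⟩ := hv.exists_map w fun c => (norm_lc_eq (fun i j => (h i j).symm) c).le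
  refine ⟨S, hS, ?_⟩
  have h1 : adjoint S ∘L S = ContinuousLinearMap.id ℂ E := by
    refine hv.ext fun i => ?_
    refine ext_inner_left ℂ fun y => ?_
    rw [comp_apply, adjoint_inner_right, ContinuousLinearMap.id_apply]
    have h2 : adjoint S (w i) - v i = 0 := by
      refine hv _ fun j => ?_
      rw [inner_sub_right, adjoint_inner_right, hS, h, sub_self]
    rw [hS, ← adjoint_inner_right, sub_eq_zero.mp h2]
  intro x y
  rw [← adjoint_inner_right, ← comp_apply, h1]
  rfl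

end ext

section kaz

variable {K : Type} [Group K]

/-- Kazhdan pairs: a vector which is almost invariant under `Q` is uniformly almost invariant. -/
theorem kaz_rep {Q : Finset K} {ε δ : ℝ} (hK : IsKazhdanPair K Q ε) {H : Type}
    [NormedAddCommGroup H] [InnerProductSpace ℂ H] [CompleteSpace H] (π : K → (H →L[ℂ] H))
    (h1 : ∀ x, π 1 x = x) (hm : ∀ g h x, π (g * h) x = π g (π h x))
    (hi : ∀ g x y, ⟪π g x, π g y⟫_ℂ = ⟪x, y⟫_ℂ) (v : H) (hv : ∀ s ∈ Q, ‖π s v - v‖ ≤ δ) (k : K) :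
    ‖π k v - v‖ ≤ 2 * δ / ε := by
  have hinv : ∀ g x y, ⟪π g x, y⟫_ℂ = ⟪x, π g⁻¹ y⟫_ℂ := by
    intro g x y
    rw [← hi g x (π g⁻¹ y), ← hm, mul_inv_cancel, h1]
  have hn : ∀ g x, ‖π g x‖ = ‖x‖ := by
    intro g x
    have h2 : ‖π g x‖ ^ 2 = ‖x‖ ^ 2 := by
      rw [← inner_self_eq_norm_sq (𝕜 := ℂ), ← inner_self_eq_norm_sq (𝕜 := ℂ), hi]
    exact (pow_left_inj₀ (norm_nonneg _) (norm_nonneg _) two_ne_zero).mp h2
  -- the fixed vectors
  obtain ⟨F, hF⟩ : ∃ F : Submodule ℂ H, ∀ x, x ∈ F ↔ ∀ g, π g x = x :=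
    ⟨{ carrier := {x | ∀ g, π g x = x}
       add_mem' := fun {a b} ha hb g => by rw [map_add, ha g, hb g]
       zero_mem' := fun g => map_zero _
       smul_mem' := fun c x hx g => by rw [map_smul, hx g] }, fun x => Iff.rfl⟩
  have hFc : IsClosed (F : Set H) := by
    have : (F : Set H) = ⋂ g, {x | π g x = x} := by
      ext x
      simp only [Set.mem_iInter, Set.mem_setOf_eq, SetLike.mem_coe]
      exact hF x
    rw [this]
    exact isClosed_iInter fun g => isClosed_eq (π g).continuous continuous_id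
  haveI : CompleteSpace F := hFc.completeSpace_coe
  obtain ⟨u, hu⟩ : ∃ u : H, u = v - F.starProjection v := ⟨_, rfl⟩
  have huo : u ∈ Fᗮ := by
    rw [hu]
    exact Submodule.sub_starProjection_mem_orthogonal v
  have hPv : ∀ g, π g (F.starProjection v) = F.starProjection v :=
    (hF _).mp (Submodule.starProjection_apply_mem F v)
  have hdiff : ∀ g, π g v - v = π g u - u := by
    intro g
    rw [hu, map_sub, hPv g]
    abel
  -- the representation on the complement
  have hG : ∀ g, ∀ x ∈ Fᗮ, π g x ∈ Fᗮ := by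
    intro g x hx
    rw [Submodule.mem_orthogonal'] at hx ⊢
    intro y hy
    rw [hinv, (hF y).mp hy g⁻¹]
    exact hx y hy
  haveI : CompleteSpace Fᗮ := (Submodule.isClosed_orthogonal F).completeSpace_coe
  obtain ⟨ρ, hρ⟩ : ∃ ρ : URep K Fᗮ, ∀ g x, ((ρ.act g x : Fᗮ) : H) = π g (x : H) :=
    ⟨{ act := fun g x => ⟨π g (x : H), hG g x x.2⟩
       act_add := fun g v w => Subtype.ext (by
        change π g ((v : H) + w) = π g v + π g w
        rw [map_add])
       act_smul := fun g c v => Subtype.ext (by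
        change π g (c • (v : H)) = c • π g v
        rw [map_smul])
       norm_act := fun g v => hn g v
       act_one := fun v => Subtype.ext (h1 v)
       act_mul := fun g h v => Subtype.ext (hm g h v) }, fun g x => rfl⟩
  obtain ⟨hε, hK2⟩ := hK
  obtain ⟨s, hsQ, hs⟩ := hK2 Fᗮ ρ (fun x hx => by
    have hxF : (x : H) ∈ F := by
      rw [hF]
      intro g
      rw [← hρ, hx g]
    have h5 := (Submodule.mem_orthogonal F (x : H)).mp x.2 x hxF
    have h6 : (x : H) = 0 := inner_self_eq_zero.mp h5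
    exact Subtype.ext h6) ⟨u, huo⟩
  have hs1 : ε * ‖u‖ ≤ ‖π s u - u‖ := by
    have h7 : ‖ρ.act s ⟨u, huo⟩ - ⟨u, huo⟩‖ = ‖π s u - u‖ := by
      rw [Submodule.coe_norm, Submodule.coe_sub, hρ]
    rw [← h7]
    exact hs
  rw [← hdiff] at hs1
  have hu1 : ‖u‖ ≤ δ / ε := by
    rw [le_div_iff₀ hε]
    have := hv s hsQ
    linarith
  rw [hdiff]
  calc ‖π k u - u‖ ≤ ‖π k u‖ + ‖u‖ := norm_sub_le _ _
    _ = 2 * ‖u‖ := by rw [hn]; ring
    _ ≤ 2 * (δ / ε) := by gcongr
    _ = 2 * δ / ε := by ring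

/-- The same for a family of vectors with an invariant Gram matrix. -/
theorem kaz_gram {Q : Finset K} {ε δ : ℝ} (hK : IsKazhdanPair K Q ε) {H : Type}
    [NormedAddCommGroup H] [InnerProductSpace ℂ H] [CompleteSpace H] (v : K → H)
    (hv : ∀ g h k, ⟪v (g * h), v (g * k)⟫_ℂ = ⟪v h, v k⟫_ℂ)
    (hq : ∀ s ∈ Q, ‖v s - v 1‖ ≤ δ) (k : K) : ‖v k - v 1‖ ≤ 2 * δ / ε := by
  obtain ⟨M, hM⟩ : ∃ M : Submodule ℂ H, M = (Submodule.span ℂ (Set.range v)).topologicalClosure :=
    ⟨_, rfl⟩
  have hMc : IsClosed (M : Set H) := by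
    rw [hM]
    exact Submodule.isClosed_topologicalClosure _
  haveI : CompleteSpace M := hMc.completeSpace_coe
  have hvM : ∀ k, v k ∈ M := fun k => by
    rw [hM]
    exact Submodule.le_topologicalClosure _ (Submodule.subset_span ⟨k, rfl⟩)
  obtain ⟨v', hv'⟩ : ∃ v' : K → M, ∀ k, ((v' k : M) : H) = v k := ⟨fun k => ⟨v k, hvM k⟩, fun k => rfl⟩
  have hin : ∀ h k, ⟪v' h, v' k⟫_ℂ = ⟪v h, v k⟫_ℂ := by
    intro h k
    rw [Submodule.coe_inner, hv', hv']
  have htot : Tot v' := by
    intro x hx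
    have h2 : (x : H) ∈ (Submodule.span ℂ (Set.range v))ᗮ := by
      rw [Submodule.mem_orthogonal]
      intro u hu
      induction hu using Submodule.span_induction with
      | mem u hu =>
        obtain ⟨k, rfl⟩ := hu
        have := hx k
        rwa [Submodule.coe_inner, hv'] at this
      | zero => exact inner_zero_left _
      | add a b _ _ ha hb => rw [inner_add_left, ha, hb, add_zero]
      | smul c a _ ha => rw [inner_smul_left, ha, mul_zero]
    have hMo : Mᗮ = (Submodule.span ℂ (Set.range v))ᗮ := by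
      rw [hM, Submodule.orthogonal_closure]
    have h3 : (x : H) ∈ Mᗮ := hMo ▸ h2
    have h4 := (Submodule.mem_orthogonal M (x : H)).mp h3 x x.2
    exact Subtype.ext (inner_self_eq_zero.mp h4)
  have hex : ∀ g : K, ∃ S : M →L[ℂ] M, (∀ k, S (v' k) = v' (g * k)) ∧
      ∀ x y, ⟪S x, S y⟫_ℂ = ⟪x, y⟫_ℂ := fun g =>
    htot.exists_iso (fun k => v' (g * k)) fun h k => by rw [hin, hin, hv]
  choose π hπ hπi using hex
  have h1 : ∀ x, π 1 x = x := by
    intro x
    have : π 1 = ContinuousLinearMap.id ℂ M := htot.ext fun k => by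
      rw [hπ, one_mul]
      rfl
    rw [this]
    rfl
  have hm : ∀ g h x, π (g * h) x = π g (π h x) := by
    intro g h x
    have : π (g * h) = π g ∘L π h := htot.ext fun k => by
      rw [comp_apply, hπ, hπ, hπ, mul_assoc]
    rw [this]
    rfl
  have hsub : ∀ g : K, ‖π g (v' 1) - v' 1‖ = ‖v g - v 1‖ := by
    intro g
    rw [hπ, mul_one, Submodule.coe_norm, Submodule.coe_sub, hv', hv']
  have h5 := kaz_rep hK π h1 hm hπi (v' 1) (δ := δ) (fun s hs => by rw [hsub]; exact hq s hs) k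
  rwa [hsub] at h5

end kaz

end Vale.Agent.P092.H715
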