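import Mathlib

/-!
P092 (helper715): the Kolmogorov decomposition of an operator valued positive definite kernel.
-/

set_option linter.all false

open scoped InnerProductSpace
open Filter Topology ContinuousLinearMap

namespace Vale.Agent.P092.H715

/-- Kolmogorov decomposition. -/
theorem exists_kol {X H : Type} [NormedAddCommGroup H] [InnerProductSpace ℂ H] [CompleteSpace H]
    (k : X → X → (H →L[ℂ] H)) (hsym : ∀ x y ξ η, ⟪ξ, k x y η⟫_ℂ = ⟪k y x ξ, η⟫_ℂ)
    (hpos : ∀ (s : Finset X) (w : X → H), 0 ≤ (∑ x ∈ s, ∑ y ∈ s, ⟪w x, k x y (w y)⟫_ℂ).re) :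
    ∃ (E : Type) (_ : NormedAddCommGroup E) (_ : InnerProductSpace ℂ E) (_ : CompleteSpace E)
      (f : X → (H →L[ℂ] E)), ∀ x y ξ η, ⟪f x ξ, f y η⟫_ℂ = ⟪ξ, k x y η⟫_ℂ := by
  have hH : (Matrix.of k).IsHermitian := by
    refine Matrix.ext fun x y => ?_
    rw [Matrix.conjTranspose_apply, Matrix.of_apply, Matrix.of_apply, star_eq_adjoint, eq_comm,
      ContinuousLinearMap.eq_adjoint_iff]
    intro ξ η
    exact (hsym y x ξ η).symm
  have hP : (Matrix.of k).PosSemidef := by
    have h0 := (RKHS.posSemidef_tfae (K := Matrix.of k)).out 0 2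
    refine h0.mpr ⟨hH, fun vv => ?_⟩
    have h1 := hpos vv.support vv
    have h2 : (vv.sum fun x w => vv.sum fun x' w' => ⟪Matrix.of k x' x w, w'⟫_ℂ) =
        ∑ x ∈ vv.support, ∑ y ∈ vv.support, ⟪vv x, k x y (vv y)⟫_ℂ := by
      simp only [Finsupp.sum, Matrix.of_apply]
      refine Finset.sum_congr rfl fun x _ => Finset.sum_congr rfl fun y _ => ?_
      rw [hsym]
    rw [h2]
    exact h1
  haveI : Fact (Matrix.of k).PosSemidef := ⟨hP⟩
  refine ⟨RKHS.OfKernel (Matrix.of k), inferInstance, inferInstance, inferInstance,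
    fun x => RKHS.kerFun (RKHS.OfKernel (Matrix.of k)) x, fun x y ξ η => ?_⟩
  rw [← RKHS.kernel_inner, RKHS.OfKernel.kernel_ofKernel, Matrix.of_apply, ← hsym]

end Vale.Agent.P092.H715
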