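import Mathlib
import Vale.Agent.P092.H715.Kaz
import Vale.Agent.P092.H715.Kol

/-!
P092 (helper715): the operator core of property (T) implies uniform tightness.

`kk x y`, `x, y ∈ Γ ∪ {⋆}`, is an operator valued positive definite kernel, equivariant under
`lm s` (`⋆` is fixed), and commuting with `R k` for `x, y ∈ Γ`.  If `kk ⋆ 1` is close to `kk 1 1` on
the vectors `R s⁻¹ ξ`, `s` in a Kazhdan set, then it is close to it on all vectors `R k⁻¹ ξ`.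
-/

set_option linter.all false

open scoped InnerProductSpace
open Filter Topology ContinuousLinearMap

namespace Vale.Agent.P092.H715

open Vale.Agent.P092.H885

/-- Data of the core. -/
structure CoreData {Γ K ι H : Type} [Group Γ] [Group K] [Fintype ι] [NormedAddCommGroup H]
    [InnerProductSpace ℂ H] [CompleteSpace H] (lm : Γ → (H →L[ℂ] H)) (R : K → (H →L[ℂ] H))
    (kk : Option Γ → Option Γ → (H →L[ℂ] H)) (x0 : ι → H) : Prop where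
  lm_one : ∀ x, lm 1 x = x
  lm_mul : ∀ s t x, lm (s * t) x = lm s (lm t x)
  lm_adj : ∀ s x y, ⟪lm s x, y⟫_ℂ = ⟪x, lm s⁻¹ y⟫_ℂ
  R_mul : ∀ k l x, R (k * l) x = R k (R l x)
  R_adj : ∀ k x y, ⟪R k x, y⟫_ℂ = ⟪x, R k⁻¹ y⟫_ℂ
  comm : ∀ s k x, lm s (R k x) = R k (lm s x)
  sym : ∀ x y ξ η, ⟪ξ, kk x y η⟫_ℂ = ⟪kk y x ξ, η⟫_ℂ
  pos : ∀ (s : Finset (Option Γ)) (w : Option Γ → H),
    0 ≤ (∑ x ∈ s, ∑ y ∈ s, ⟪w x, kk x y (w y)⟫_ℂ).re
  kl : ∀ s x y ξ, kk (x.map (s * ·)) (y.map (s * ·)) (lm s ξ) = lm s (kk x y ξ)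
  kr : ∀ k a b ξ, kk (some a) (some b) (R k ξ) = R k (kk (some a) (some b) ξ)
  k1 : ∀ x y ξ, kk x y (R 1 ξ) = kk x y ξ
  R1 : ∀ i, R 1 (x0 i) = x0 i
  tr : ∀ T : H →L[ℂ] H, (∀ s ξ, T (lm s ξ) = lm s (T ξ)) → ∀ k l : K,
    ∑ i, ⟪R k⁻¹ (x0 i), T (R l⁻¹ (x0 i))⟫_ℂ = ∑ i, ⟪x0 i, T (R (k⁻¹ * l)⁻¹ (x0 i))⟫_ℂ
  diag : ∀ ξ, kk none none ξ = kk (some 1) (some 1) ξ

section

variable {Γ K ι H : Type} [Group Γ] [Group K] [Fintype ι] [NormedAddCommGroup H]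
  [InnerProductSpace ℂ H] [CompleteSpace H] {lm : Γ → (H →L[ℂ] H)} {R : K → (H →L[ℂ] H)}
  {kk : Option Γ → Option Γ → (H →L[ℂ] H)} {x0 : ι → H}

/-- The vectors of the isometric action of `K`. -/
theorem exists_vec (h : CoreData lm R kk x0) :
    ∃ (E : Type) (_ : NormedAddCommGroup E) (_ : InnerProductSpace ℂ E) (_ : CompleteSpace E)
      (a : K → ι → E) (o : ι → E),
      (∀ g k l, ∑ i, ⟪a (g * k) i, a (g * l) i⟫_ℂ = ∑ i, ⟪a k i, a l i⟫_ℂ) ∧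
      (∀ i, ‖o i‖ ^ 2 = (⟪x0 i, kk (some 1) (some 1) (x0 i)⟫_ℂ).re) ∧
      (∀ k i, ‖a k i - o i‖ ^ 2 ≤ 2 * (⟪R k⁻¹ (x0 i), kk (some 1) (some 1) (R k⁻¹ (x0 i)) -
        kk (some 1) none (R k⁻¹ (x0 i))⟫_ℂ).re) ∧
      (∀ k i, (⟪R k⁻¹ (x0 i), kk (some 1) (some 1) (R k⁻¹ (x0 i)) -
        kk (some 1) none (R k⁻¹ (x0 i))⟫_ℂ).re = (⟪o i, o i - a k i⟫_ℂ).re) := by
  obtain ⟨E, i1, i2, i3, f, hf⟩ := exists_kol kk h.sym h.pos
  -- the closed span of the sections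
  obtain ⟨M, hM⟩ : ∃ M : Submodule ℂ E, M = (Submodule.span ℂ
      (Set.range fun p : Γ × H => f (some p.1) p.2)).topologicalClosure := ⟨_, rfl⟩
  have hMc : IsClosed (M : Set E) := by
    rw [hM]
    exact Submodule.isClosed_topologicalClosure _
  haveI : CompleteSpace M := hMc.completeSpace_coe
  have hvM : ∀ p : Γ × H, f (some p.1) p.2 ∈ M := fun p => by
    rw [hM]
    exact Submodule.le_topologicalClosure _ (Submodule.subset_span ⟨p, rfl⟩)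
  obtain ⟨v, hv⟩ : ∃ v : Γ × H → M, ∀ p, ((v p : M) : E) = f (some p.1) p.2 :=
    ⟨fun p => ⟨_, hvM p⟩, fun p => rfl⟩
  have hin : ∀ p q, ⟪v p, v q⟫_ℂ = ⟪p.2, kk (some p.1) (some q.1) q.2⟫_ℂ := by
    intro p q
    rw [Submodule.coe_inner, hv, hv, hf]
  have hMo : Mᗮ = (Submodule.span ℂ (Set.range fun p : Γ × H => f (some p.1) p.2))ᗮ := by
    rw [hM, Submodule.orthogonal_closure]
  have htot : Tot v := by
    intro x hx
    have h2 : (x : E) ∈ (Submodule.span ℂ (Set.range fun p : Γ × H => f (some p.1) p.2))ᗮ := by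
      rw [Submodule.mem_orthogonal]
      intro u hu
      induction hu using Submodule.span_induction with
      | mem u hu =>
        obtain ⟨p, rfl⟩ := hu
        have := hx p
        rwa [Submodule.coe_inner, hv] at this
      | zero => exact inner_zero_left _
      | add a b _ _ ha hb => rw [inner_add_left, ha, hb, add_zero]
      | smul c a _ ha => rw [inner_smul_left, ha, mul_zero]
    have h3 : (x : E) ∈ Mᗮ := hMo ▸ h2
    have h4 := (Submodule.mem_orthogonal M (x : E)).mp h3 x x.2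
    exact Subtype.ext (inner_self_eq_zero.mp h4)
  -- the operator `T`
  obtain ⟨T, hT⟩ : ∃ T : H →L[ℂ] M, ∀ ξ, T ξ = M.orthogonalProjection (f none ξ) :=
    ⟨M.orthogonalProjection ∘L f none, fun ξ => rfl⟩
  have hT1 : ∀ p ξ, ⟪v p, T ξ⟫_ℂ = ⟪p.2, kk (some p.1) none ξ⟫_ℂ := by
    intro p ξ
    rw [hT, Submodule.coe_inner, ← hf, ← hv]
    have h5 := Submodule.inner_orthogonalProjection_eq_of_mem_left (K := M) (v p) (f none ξ)
    rw [Submodule.coe_inner] at h5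
    exact h5
  have hT2 : ∀ ξ, ‖T ξ‖ ^ 2 ≤ (⟪ξ, kk none none ξ⟫_ℂ).re := by
    intro ξ
    have h5 : ‖T ξ‖ ≤ ‖f none ξ‖ := by
      rw [hT]
      exact (M.orthogonalProjection.le_opNorm _).trans
        ((mul_le_mul_of_nonneg_right M.orthogonalProjection_norm_le (norm_nonneg _)).trans
          (one_mul _).le)
    have h6 : ‖f none ξ‖ ^ 2 = (⟪ξ, kk none none ξ⟫_ℂ).re := by
      rw [← hf, ← inner_self_eq_norm_sq (𝕜 := ℂ)]
      rfl
    rw [← h6]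
    gcongr
  -- the unitaries
  have hUex : ∀ s : Γ, ∃ S : M →L[ℂ] M, (∀ p : Γ × H, S (v p) = v (s * p.1, lm s p.2)) ∧
      ∀ x y, ⟪S x, S y⟫_ℂ = ⟪x, y⟫_ℂ := fun s =>
    htot.exists_iso (fun p => v (s * p.1, lm s p.2)) fun p q => by
      rw [hin, hin]
      have h5 := h.kl s (some p.1) (some q.1) q.2
      simp only [Option.map_some] at h5
      change ⟪lm s p.2, _⟫_ℂ = _
      rw [h5, h.lm_adj, ← h.lm_mul, inv_mul_cancel, h.lm_one]
  choose Us hU hUi using hUex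
  have hR0 : ∀ k p q, ⟪v (p.1, R k p.2), v (q.1, R k q.2)⟫_ℂ = ⟪v p, v q⟫_ℂ := by
    intro k p q
    rw [hin, hin]
    change ⟪R k p.2, kk (some p.1) (some q.1) (R k q.2)⟫_ℂ = _
    rw [h.kr, h.R_adj, ← h.R_mul, inv_mul_cancel, ← h.kr, h.k1]
  have hRex : ∀ k : K, ∃ S : M →L[ℂ] M, (∀ p : Γ × H, S (v p) = v (p.1, R k p.2)) ∧
      ∀ x y, ⟪S x, S y⟫_ℂ = ⟪x, y⟫_ℂ := fun k =>
    htot.exists_iso (fun p => v (p.1, R k p.2)) (hR0 k)
  choose Rs hR hRi using hRex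
  have hR1v : ∀ p : Γ × H, v (p.1, R 1 p.2) = v p := by
    intro p
    have h5 : v (p.1, R 1 p.2) - v p = 0 := by
      refine htot _ fun q => ?_
      rw [inner_sub_right, hin, hin]
      change ⟪q.2, kk (some q.1) (some p.1) (R 1 p.2)⟫_ℂ - _ = 0
      rw [h.k1, sub_self]
    exact sub_eq_zero.mp h5
  have hRone : ∀ x, Rs 1 x = x := by
    intro x
    have : Rs 1 = ContinuousLinearMap.id ℂ M := htot.ext fun p => by
      rw [hR, hR1v]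
      rfl
    rw [this]
    rfl
  have hRmul : ∀ k l x, Rs (k * l) x = Rs k (Rs l x) := by
    intro k l x
    have : Rs (k * l) = Rs k ∘L Rs l := htot.ext fun p => by
      rw [comp_apply, hR, hR, hR, h.R_mul]
    rw [this]
    rfl
  have hRadj : ∀ k x y, ⟪Rs k x, y⟫_ℂ = ⟪x, Rs k⁻¹ y⟫_ℂ := by
    intro k x y
    rw [← hRi k x (Rs k⁻¹ y), ← hRmul, mul_inv_cancel, hRone]
  have hUone : ∀ x, Us 1 x = x := by
    intro x
    have : Us 1 = ContinuousLinearMap.id ℂ M := htot.ext fun p => by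
      rw [hU, one_mul, h.lm_one]
      rfl
    rw [this]
    rfl
  have hUmul : ∀ k l x, Us (k * l) x = Us k (Us l x) := by
    intro k l x
    have : Us (k * l) = Us k ∘L Us l := htot.ext fun p => by
      rw [comp_apply, hU, hU, hU, h.lm_mul, mul_assoc]
    rw [this]
    rfl
  have hUadj : ∀ k x y, ⟪Us k x, y⟫_ℂ = ⟪x, Us k⁻¹ y⟫_ℂ := by
    intro k x y
    rw [← hUi k x (Us k⁻¹ y), ← hUmul, mul_inv_cancel, hUone]
  have hUR : ∀ s k x, Us s (Rs k x) = Rs k (Us s x) := by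
    intro s k x
    have : Us s ∘L Rs k = Rs k ∘L Us s := htot.ext fun p => by
      rw [comp_apply, comp_apply, hU, hR, hR, hU, h.comm]
    exact congrArg (fun S : M →L[ℂ] M => S x) this
  have hTU : ∀ s ξ, T (lm s ξ) = Us s (T ξ) := by
    intro s ξ
    have h5 : T (lm s ξ) - Us s (T ξ) = 0 := by
      refine htot _ fun p => ?_
      have h6 := h.kl s (some (s⁻¹ * p.1)) none ξ
      simp only [Option.map_some, Option.map_none, mul_inv_cancel_left] at h6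
      have h7 : ⟪v p, Us s (T ξ)⟫_ℂ = ⟪Us s⁻¹ (v p), T ξ⟫_ℂ := by
        rw [hUadj, inv_inv]
      rw [inner_sub_right, h7, hU, hT1, hT1, h6, h.lm_adj s⁻¹, inv_inv, sub_self]
    exact sub_eq_zero.mp h5
  -- the operators `T* R T` commute with `lm`
  have hcomm : ∀ k s ξ, (adjoint T ∘L Rs k ∘L T) (lm s ξ) = lm s ((adjoint T ∘L Rs k ∘L T) ξ) := by
    intro k s ξ
    refine ext_inner_left ℂ fun y => ?_
    have e1 : ⟪y, lm s ((adjoint T ∘L Rs k ∘L T) ξ)⟫_ℂ =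
        ⟪lm s⁻¹ y, (adjoint T ∘L Rs k ∘L T) ξ⟫_ℂ := by
      rw [h.lm_adj, inv_inv]
    rw [e1]
    simp only [comp_apply]
    rw [adjoint_inner_right, adjoint_inner_right, hTU, hTU, ← hUR, hUadj s⁻¹, inv_inv]
  -- the vectors
  refine ⟨M, inferInstance, inferInstance, inferInstance, fun k i => Rs k (T (R k⁻¹ (x0 i))),
    fun i => v (1, x0 i), ?_, ?_, ?_, ?_⟩
  · have key : ∀ k l, ∑ i, ⟪Rs k (T (R k⁻¹ (x0 i))), Rs l (T (R l⁻¹ (x0 i)))⟫_ℂ =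
        ∑ i, ⟪x0 i, (adjoint T ∘L Rs (k⁻¹ * l) ∘L T) (R (k⁻¹ * l)⁻¹ (x0 i))⟫_ℂ := by
      intro k l
      rw [← h.tr (adjoint T ∘L Rs (k⁻¹ * l) ∘L T) (fun s ξ => hcomm _ s ξ) k l]
      refine Finset.sum_congr rfl fun i _ => ?_
      simp only [comp_apply]
      rw [adjoint_inner_right, hRmul, hRadj]
    intro g k l
    rw [key, key, mul_inv_rev, mul_assoc, inv_mul_cancel_left]
  · intro i
    rw [← inner_self_eq_norm_sq (𝕜 := ℂ), hin]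
    rfl
  all_goals
    intro k i
    obtain ⟨ζ, hζ⟩ : ∃ ζ, ζ = R k⁻¹ (x0 i) := ⟨_, rfl⟩
    have ho : v (1, x0 i) = Rs k (v (1, ζ)) := by
      rw [hR, hζ]
      change _ = v (1, R k (R k⁻¹ (x0 i)))
      rw [← h.R_mul, mul_inv_cancel, h.R1]
    have hnR : ∀ x, ‖Rs k x‖ ^ 2 = ‖x‖ ^ 2 := fun x => by
      rw [← inner_self_eq_norm_sq (𝕜 := ℂ), ← inner_self_eq_norm_sq (𝕜 := ℂ), hRi]
    have ha : ‖v (1, ζ)‖ ^ 2 = (⟪ζ, kk (some 1) (some 1) ζ⟫_ℂ).re := by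
      rw [← inner_self_eq_norm_sq (𝕜 := ℂ), hin]
      rfl
    have hb : (⟪v (1, ζ), T ζ⟫_ℂ).re = (⟪ζ, kk (some 1) none ζ⟫_ℂ).re := by rw [hT1]
    simp only [← hζ]
    rw [ho]
  · rw [← map_sub, hnR, norm_sub_sq (𝕜 := ℂ), ha, inner_sub_right, Complex.sub_re]
    have hc := hT2 ζ
    rw [h.diag] at hc
    have hd : RCLike.re ⟪T ζ, v (1, ζ)⟫_ℂ = (⟪ζ, kk (some 1) none ζ⟫_ℂ).re := by
      rw [← hb, ← inner_conj_symm]
      exact Complex.conj_re _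
    rw [hd]
    linarith
  · rw [← map_sub, hRi, inner_sub_right, inner_sub_right, Complex.sub_re, Complex.sub_re, hb]
    congr 1
    rw [← ha, ← inner_self_eq_norm_sq (𝕜 := ℂ)]
    rfl

/-- The core: closeness on a Kazhdan set implies closeness on the whole group. -/
theorem core (h : CoreData lm R kk x0) {Q : Finset K} {κ δ : ℝ} (hK : IsKazhdanPair K Q κ)
    (hδ : 0 ≤ δ) (hM : ∑ i, (⟪x0 i, kk (some 1) (some 1) (x0 i)⟫_ℂ).re ≤ 1)
    (hq : ∀ s : K, s = 1 ∨ s ∈ Q → ∑ i, (⟪R s⁻¹ (x0 i), kk (some 1) (some 1) (R s⁻¹ (x0 i)) -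
        kk (some 1) none (R s⁻¹ (x0 i))⟫_ℂ).re ≤ δ ^ 2) (k : K) :
    ∑ i, (⟪R k⁻¹ (x0 i), kk (some 1) (some 1) (R k⁻¹ (x0 i)) -
        kk (some 1) none (R k⁻¹ (x0 i))⟫_ℂ).re ≤ (2 + 8 / κ) * δ := by
  obtain ⟨E, i1, i2, i3, a, o, h1, h2, h3, h4⟩ := exists_vec h
  obtain ⟨A, hA⟩ : ∃ A : K → PiLp 2 (fun _ : ι => E), ∀ k i, A k i = a k i :=
    ⟨fun k => WithLp.toLp 2 (a k), fun k i => rfl⟩
  obtain ⟨O, hO⟩ : ∃ O : PiLp 2 (fun _ : ι => E), ∀ i, O i = o i :=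
    ⟨WithLp.toLp 2 o, fun i => rfl⟩
  have hAO : ∀ s : K, s = 1 ∨ s ∈ Q → ‖A s - O‖ ≤ 2 * δ := by
    intro s hs
    have h5 : ‖A s - O‖ ^ 2 ≤ (2 * δ) ^ 2 := by
      rw [PiLp.norm_sq_eq_of_L2]
      have h6 : ∑ i, ‖(A s - O) i‖ ^ 2 ≤ ∑ i, 2 * (⟪R s⁻¹ (x0 i),
          kk (some 1) (some 1) (R s⁻¹ (x0 i)) - kk (some 1) none (R s⁻¹ (x0 i))⟫_ℂ).re := by
        refine Finset.sum_le_sum fun i _ => ?_
        rw [PiLp.sub_apply, hA, hO]
        exact h3 s i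
      rw [← Finset.mul_sum] at h6
      have h7 := hq s hs
      nlinarith [sq_nonneg δ]
    exact (pow_le_pow_iff_left₀ (norm_nonneg _) (by positivity) two_ne_zero).mp h5
  have hκ := hK.1
  have hk : ‖A k - A 1‖ ≤ 2 * (4 * δ) / κ := by
    refine kaz_gram hK A (fun g k l => ?_) (fun s hs => ?_) k
    · rw [PiLp.inner_apply, PiLp.inner_apply]
      simp only [hA]
      exact h1 g k l
    · have h5 := hAO s (Or.inr hs)
      have h6 := hAO 1 (Or.inl rfl)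
      rw [norm_sub_rev] at h6
      calc ‖A s - A 1‖ = ‖(A s - O) + (O - A 1)‖ := by congr 1; abel
        _ ≤ ‖A s - O‖ + ‖O - A 1‖ := norm_add_le _ _
        _ ≤ 4 * δ := by linarith
  have hkO : ‖O - A k‖ ≤ (2 + 8 / κ) * δ := by
    have h6 := hAO 1 (Or.inl rfl)
    rw [norm_sub_rev] at h6
    rw [norm_sub_rev] at hk
    calc ‖O - A k‖ = ‖(O - A 1) + (A 1 - A k)‖ := by congr 1; abel
      _ ≤ ‖O - A 1‖ + ‖A 1 - A k‖ := norm_add_le _ _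
      _ ≤ 2 * δ + 2 * (4 * δ) / κ := add_le_add h6 hk
      _ = (2 + 8 / κ) * δ := by ring
  have hO1 : ‖O‖ ≤ 1 := by
    have h5 : ‖O‖ ^ 2 ≤ 1 := by
      rw [PiLp.norm_sq_eq_of_L2]
      refine le_trans (le_of_eq ?_) hM
      exact Finset.sum_congr rfl fun i _ => by rw [hO]; exact h2 i
    nlinarith [norm_nonneg O]
  have hfin : ∑ i, (⟪R k⁻¹ (x0 i), kk (some 1) (some 1) (R k⁻¹ (x0 i)) -
        kk (some 1) none (R k⁻¹ (x0 i))⟫_ℂ).re = (⟪O, O - A k⟫_ℂ).re := by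
    rw [PiLp.inner_apply, Complex.re_sum]
    refine Finset.sum_congr rfl fun i _ => ?_
    rw [PiLp.sub_apply, hO, hA]
    exact h4 k i
  rw [hfin]
  calc (⟪O, O - A k⟫_ℂ).re ≤ ‖⟪O, O - A k⟫_ℂ‖ := Complex.re_le_norm _
    _ ≤ ‖O‖ * ‖O - A k‖ := norm_inner_le_norm _ _
    _ ≤ 1 * ((2 + 8 / κ) * δ) := by gcongr
    _ = (2 + 8 / κ) * δ := one_mul _

end

end Vale.Agent.P092.H715
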