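import Vale.Agent.P092.H715.DisjP
import Vale.Agent.P092.SD.Defs

/-!
helper715, P092, [U9]: (DISJ) in the letters of SD/Defs, points and lines.
-/

set_option linter.all false

open Filter Topology Set Matrix
open scoped LinearAlgebra.Projectivization

namespace Vale.Agent.P092.H715.Disj

open Vale.Agent.P092.H820 Vale.Agent.P092.SD

variable {k : Type} [NontriviallyNormedField k]

theorem map_id' (g : G3 k) : SpecialLinearGroup.map (RingHom.id k) g = g := by
  apply Subtype.ext
  ext i j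
  rfl

/-- points -/
theorem disj_pt (y : PP k) : ∃ N : Subgroup (G3 k), (∀ a ∈ N, ∀ b ∈ N, Commute a b) ∧
    (∀ a ∈ N, a • y = y) ∧ Disj (MonoidHom.id (G3 k)) (N : Set (G3 k)) y := by
  obtain ⟨⟨v, hv⟩, rfl⟩ := pj_surj y
  have e : (⟨sv (RingHom.id k) v, sv_ne (RingHom.id k) hv⟩ : {v : Fin 3 → k // v ≠ 0}) =
      ⟨v, hv⟩ := rfl
  refine ⟨NG v, fun a ha b hb => nn_comm v ha hb, fun a ha => ?_, ?_⟩
  · have := nn_fix (RingHom.id k) hv ha
    rw [map_id', e] at this
    exact this
  · have := disj_nn (RingHom.id k) hσ_id (MonoidHom.id (G3 k))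
      (fun h x => by rw [map_id']; rfl) hv
    rw [e] at this
    exact this

theorem tau_tau' (g : G3 k) : tau k (tau k g) = g := by
  apply Subtype.ext
  change (((tau k g)⁻¹).1).transpose = g.1
  rw [← map_inv]
  change ((((g⁻¹)⁻¹).1).transpose).transpose = g.1
  rw [inv_inv, Matrix.transpose_transpose]

/-- lines: the action through the inverse transpose -/
theorem disj_ln (y : PP k) : ∃ N : Subgroup (G3 k), (∀ a ∈ N, ∀ b ∈ N, Commute a b) ∧
    (∀ a ∈ N, tau k a • y = y) ∧ Disj (tau k) (N : Set (G3 k)) y := by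
  obtain ⟨N, h1, h2, h3⟩ := disj_pt y
  refine ⟨N.comap (tau k), fun a ha b hb => ?_, fun a ha => h2 _ ha, ?_⟩
  · have := h1 _ ha _ hb
    have h4 : tau k (a * b) = tau k (b * a) := by rw [map_mul, map_mul]; exact this
    have h5 := congrArg (tau k) h4
    rw [tau_tau', tau_tau'] at h5
    exact h5
  · intro ξ hξ
    obtain ⟨V, hV, hm, h⟩ := h3 ξ hξ
    refine ⟨V, hV, hm, fun M => ?_⟩
    obtain ⟨n, hn, hd⟩ := h M
    refine ⟨fun i => tau k (n i), fun i => ?_, fun i j hij x hx x' hx' => ?_⟩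
    · change tau k (tau k (n i)) ∈ N
      rw [tau_tau']; exact hn i
    · rw [tau_tau', tau_tau']
      exact hd i j hij x hx x' hx'

end Vale.Agent.P092.H715.Disj
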