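import Vale.Agent.P092.H538.Step
import Vale.Agent.P092.H715.Core

/-!
P092 (helper715): property (T) implies uniform tightness in the fibres ([T-a] of helper718's plan).
-/

set_option linter.all false

open scoped InnerProductSpace
open Filter Topology ContinuousLinearMap

namespace Vale.Agent.P092.H715

open Vale.Agent.P092.H160 Vale.Agent.P092.H553 Vale.Agent.P092.H538 Vale.Agent.P092.H885

section defs

variable {Γ Λ : Type} [Group Γ] [Group Λ]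

/-- Uniform tightness: the mass of `Wr v δ_e`, `v ∈ K`, far out in the fibres is uniformly
small. -/
def UTight (U : Ultrafilter ℕ) (V : Λ →* (Ell2 Γ →L[ℂ] Ell2 Γ)) (z : ℕ → Λ) (χ dd : ℕ → Γ → ℝ)
    (K : Subgroup Λ) : Prop :=
  ∀ ε : ℝ, 0 < ε → ∃ R1 : ℝ, ∀ v ∈ K,
    th U V z (fun k g => χ k g * ind (fun g => R1 ≤ dd k g) g) (Wr V v (dl 1)) ≤ ε

/-- Asymptotically equivariant positive definite kernels `Φ k g a b` (`k` is the level, `g` the
place). -/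
structure PKer (U : Ultrafilter ℕ) (χ : ℕ → Γ → ℝ) (Φ : ℕ → Γ → Γ → Γ → ℝ) : Prop where
  pd : ∀ k g, χ k g ≠ 0 → ∀ (ι : Type) (s : Finset ι) (a : ι → Γ) (c : ι → ℂ),
    0 ≤ (∑ x ∈ s, ∑ y ∈ s, (starRingEnd ℂ) (c x) * c y * (Φ k g (a x) (a y) : ℂ)).re
  symm : ∀ k g, χ k g ≠ 0 → ∀ a b, Φ k g a b = Φ k g b a
  one : ∀ k g, χ k g ≠ 0 → ∀ a, Φ k g a a = 1
  bdd : ∀ k g, χ k g ≠ 0 → ∀ a b, |Φ k g a b| ≤ 1
  left : ∀ s a b : Γ, ∀ δ : ℝ, 0 < δ → ∀ᶠ k in U, ∀ g, χ k g ≠ 0 → χ k (s * g) ≠ 0 →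
    |Φ k (s * g) (s * a) (s * b) - Φ k g a b| ≤ δ
  left' : ∀ s a : Γ, ∀ δ : ℝ, 0 < δ → ∀ᶠ k in U, ∀ g, χ k g ≠ 0 → χ k (s * g) ≠ 0 →
    |Φ k (s * g) (s * g) (s * a) - Φ k g g a| ≤ δ
  right : ∀ t a b : Γ, ∀ δ : ℝ, 0 < δ → ∀ᶠ k in U, ∀ g, χ k g ≠ 0 → χ k (g * t) ≠ 0 →
    |Φ k (g * t) a b - Φ k g a b| ≤ δ

end defs

theorem cut_diff {x x' a a' δ : ℝ} (hx' : 0 ≤ x') (hx : 0 ≤ x) (hx1 : x ≤ 1)
    (h : |x' - x| ≤ δ) (hA : x' ≠ 0 → |a'| ≤ 1) (hB : x ≠ 0 → |a| ≤ 1)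
    (hD : x ≠ 0 → x' ≠ 0 → |a' - a| ≤ δ) : |x' * a' - x * a| ≤ 2 * δ := by
  have hδ : 0 ≤ δ := (abs_nonneg _).trans h
  by_cases h0 : x = 0
  · by_cases h0' : x' = 0
    · rw [h0, h0']; simp; exact hδ
    · rw [h0, zero_mul, sub_zero, abs_mul, abs_of_nonneg hx']
      rw [h0, sub_zero, abs_of_nonneg hx'] at h
      nlinarith [hA h0', abs_nonneg a']
  · by_cases h0' : x' = 0
    · rw [h0', zero_mul, zero_sub, abs_neg, abs_mul, abs_of_nonneg hx]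
      rw [h0', zero_sub, abs_neg, abs_of_nonneg hx] at h
      nlinarith [hB h0, abs_nonneg a]
    · have e : x' * a' - x * a = (x' - x) * a' + x * (a' - a) := by ring
      rw [e]
      refine (abs_add_le _ _).trans ?_
      rw [abs_mul, abs_mul, abs_of_nonneg hx]
      have h1 := hA h0'
      have h2 := hD h0 h0'
      have h3 := abs_nonneg (x' - x)
      have h4 := abs_nonneg a'
      have h5 := abs_nonneg (a' - a)
      nlinarith

section main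

variable {Γ Λ : Type} [Group Γ] [Group Λ] {V : Λ →* (Ell2 Γ →L[ℂ] Ell2 Γ)}
  {U : Ultrafilter ℕ} {z : ℕ → Λ} {F F' D : ℕ → Γ → ℝ} {C C' : ℝ} {χ dd : ℕ → Γ → ℝ}
  {Φ : ℕ → Γ → Γ → Γ → ℝ}

/-- The functions of the operator valued kernel. -/
noncomputable def fk (χ : ℕ → Γ → ℝ) (Φ : ℕ → Γ → Γ → Γ → ℝ) (x y : Option Γ) (k : ℕ) (g : Γ) : ℝ :=
  χ k g * Φ k g (x.getD g) (y.getD g)

theorem chi_abs (hχ : CutOff U χ) (k : ℕ) (g : Γ) : |χ k g| ≤ 1 := by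
  rw [abs_of_nonneg (hχ.nonneg k g)]
  exact hχ.le_one k g

theorem fk_bdd (hχ : CutOff U χ) (hΦ : PKer U χ Φ) (x y : Option Γ) (k : ℕ) (g : Γ) :
    |fk χ Φ x y k g| ≤ 1 := by
  by_cases h0 : χ k g = 0
  · rw [fk, h0, zero_mul, abs_zero]; exact zero_le_one
  · rw [fk, abs_mul]
    have h1 := hΦ.bdd k g h0 (x.getD g) (y.getD g)
    have h2 := chi_abs hχ k g
    nlinarith [abs_nonneg (χ k g), abs_nonneg (Φ k g (x.getD g) (y.getD g))]

theorem getD_map (x : Option Γ) (s g : Γ) : (x.map (s * ·)).getD (s * g) = s * x.getD g := by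
  cases x <;> rfl

theorem fk_symm (hχ : CutOff U χ) (hΦ : PKer U χ Φ) (x y : Option Γ) :
    fk χ Φ x y = fk χ Φ y x := by
  funext k g
  by_cases h0 : χ k g = 0
  · rw [fk, fk, h0, zero_mul, zero_mul]
  · rw [fk, fk, hΦ.symm k g h0]

theorem fk_left (hχ : CutOff U χ) (hΦ : PKer U χ Φ) (s : Γ) (x y : Option Γ) :
    Usm U (fun k g => fk χ Φ x y k (s⁻¹ * g) - fk χ Φ (x.map (s * ·)) (y.map (s * ·)) k g) := by
  intro δ hδ
  have h1 : ∀ᶠ k in U, ∀ g, χ k g ≠ 0 → χ k (s * g) ≠ 0 →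
      |Φ k (s * g) (s * x.getD g) (s * y.getD g) - Φ k g (x.getD g) (y.getD g)| ≤ δ / 2 := by
    rcases x with _ | a <;> rcases y with _ | b
    · refine Eventually.of_forall fun k g h0 h0' => ?_
      change |Φ k (s * g) (s * g) (s * g) - Φ k g g g| ≤ δ / 2
      rw [hΦ.one k _ h0', hΦ.one k _ h0, sub_self, abs_zero]
      positivity
    · filter_upwards [hΦ.left' s b (δ / 2) (by positivity)] with k hk g h0 h0'
      exact hk g h0 h0'
    · filter_upwards [hΦ.left' s a (δ / 2) (by positivity)] with k hk g h0 h0'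
      change |Φ k (s * g) (s * a) (s * g) - Φ k g a g| ≤ δ / 2
      rw [hΦ.symm k _ h0', hΦ.symm k _ h0]
      exact hk g h0 h0'
    · filter_upwards [hΦ.left s a b (δ / 2) (by positivity)] with k hk g h0 h0'
      exact hk g h0 h0'
  filter_upwards [h1, hχ.left s (δ / 2) (by positivity)] with k hk1 hk2 g
  obtain ⟨g', rfl⟩ : ∃ g', g = s * g' := ⟨s⁻¹ * g, by rw [mul_inv_cancel_left]⟩
  rw [inv_mul_cancel_left, abs_sub_comm, fk, fk, getD_map, getD_map]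
  have h3 := cut_diff (hχ.nonneg k (s * g')) (hχ.nonneg k g') (hχ.le_one k g') (hk2 g')
    (fun h => hΦ.bdd k _ h _ _) (fun h => hΦ.bdd k _ h _ _) (fun h h' => hk1 g' h h')
  linarith

theorem fk_right (hχ : CutOff U χ) (hΦ : PKer U χ Φ) (t a b : Γ) :
    Usm U (fun k g => fk χ Φ (some a) (some b) k (g * t) - fk χ Φ (some a) (some b) k g) := by
  intro δ hδ
  filter_upwards [hΦ.right t a b (δ / 2) (by positivity), hχ.right t (δ / 2) (by positivity)]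
    with k hk1 hk2 g
  rw [fk, fk]
  have h3 := cut_diff (hχ.nonneg k (g * t)) (hχ.nonneg k g) (hχ.le_one k g) (hk2 g)
    (fun h => hΦ.bdd k _ h _ _) (fun h => hΦ.bdd k _ h _ _) (fun h h' => hk1 g h h')
  simp only [Option.getD_some]
  linarith

theorem fk_pd (hχ : CutOff U χ) (hΦ : PKer U χ Φ) (k : ℕ) (g : Γ) (s : Finset (Option Γ))
    (c : Option Γ → ℂ) :
    0 ≤ (∑ x ∈ s, ∑ y ∈ s, (starRingEnd ℂ) (c x) * c y * (fk χ Φ x y k g : ℂ)).re := by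
  have h1 : ∑ x ∈ s, ∑ y ∈ s, (starRingEnd ℂ) (c x) * c y * (fk χ Φ x y k g : ℂ) =
      (χ k g : ℂ) * ∑ x ∈ s, ∑ y ∈ s, (starRingEnd ℂ) (c x) * c y *
        (Φ k g (x.getD g) (y.getD g) : ℂ) := by
    rw [Finset.mul_sum]
    refine Finset.sum_congr rfl fun x _ => ?_
    rw [Finset.mul_sum]
    refine Finset.sum_congr rfl fun y _ => ?_
    rw [fk]
    push_cast
    ring
  rw [h1, Complex.re_ofReal_mul]
  by_cases h0 : χ k g = 0
  · rw [h0, zero_mul]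
  · exact mul_nonneg (hχ.nonneg k g) (hΦ.pd k g h0 _ s (fun x => x.getD g) c)

/-- positivity of the operator valued kernel -/
theorem kk_pos (hV : Frame V) (hχ : CutOff U χ) (hΦ : PKer U χ Φ) (s : Finset (Option Γ))
    (w : Option Γ → Ell2 Γ) :
    0 ≤ (∑ x ∈ s, ∑ y ∈ s, ⟪w x, PiL U V z (fk χ Φ x y) (w y)⟫_ℂ).re := by
  have h1 : Tendsto (fun k => (∑ x ∈ s, ∑ y ∈ s,
      ⟪Wr V (z k) (w x), mo (fk χ Φ x y k) (Wr V (z k) (w y))⟫_ℂ).re) U
      (𝓝 (∑ x ∈ s, ∑ y ∈ s, ⟪w x, PiL U V z (fk χ Φ x y) (w y)⟫_ℂ).re) := by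
    refine (Complex.continuous_re.tendsto _).comp ?_
    exact tendsto_finsetSum s fun x _ => tendsto_finsetSum s fun y _ =>
      pl_spec hV (fk_bdd hχ hΦ x y) _ _
  refine ge_of_tendsto h1 (Eventually.of_forall fun k => ?_)
  have h2 : ∀ x y, HasSum (fun g => (starRingEnd ℂ) (Wr V (z k) (w x) g) *
      Wr V (z k) (w y) g * (fk χ Φ x y k g : ℂ))
      ⟪Wr V (z k) (w x), mo (fk χ Φ x y k) (Wr V (z k) (w y))⟫_ℂ := by
    intro x y
    have h3 := hasSum_inner' (Wr V (z k) (w x)) (mo (fk χ Φ x y k) (Wr V (z k) (w y)))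
    have e : (fun g => (starRingEnd ℂ) (Wr V (z k) (w x) g) * Wr V (z k) (w y) g *
        (fk χ Φ x y k g : ℂ)) = fun g => mo (fk χ Φ x y k) (Wr V (z k) (w y)) g *
        (starRingEnd ℂ) (Wr V (z k) (w x) g) := by
      funext g
      rw [mo_apply (fk_bdd hχ hΦ x y k)]
      ring
    rw [e]
    exact h3
  have h4 : HasSum (fun g => ∑ x ∈ s, ∑ y ∈ s, (starRingEnd ℂ) (Wr V (z k) (w x) g) *
      Wr V (z k) (w y) g * (fk χ Φ x y k g : ℂ))
      (∑ x ∈ s, ∑ y ∈ s, ⟪Wr V (z k) (w x), mo (fk χ Φ x y k) (Wr V (z k) (w y))⟫_ℂ) :=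
    hasSum_sum fun x _ => hasSum_sum fun y _ => h2 x y
  have h5 := Complex.hasSum_re h4
  exact h5.nonneg fun g => fk_pd hχ hΦ k g s fun x => Wr V (z k) (w x) g

/-- The kernel operators satisfy the hypotheses of the core. -/
theorem coreData (hV : Frame V) (hχ : CutOff U χ) (hΦ : PKer U χ Φ) (K : Subgroup Λ)
    (hz : ∀ k, ∀ v ∈ K, z k * v = v * z k) :
    CoreData (Γ := Γ) (K := K) (ι := Unit) (fun s => lam s) (fun v : K => Wr V (v : Λ))
      (fun x y => PiL U V z (fk χ Φ x y)) (fun _ => (dl 1 : Ell2 Γ)) where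
  lm_one x := by rw [lam_one]; rfl
  lm_mul s t x := by rw [lam_mul]; rfl
  lm_adj s x y := by rw [← adjoint_lam, adjoint_inner_right]
  R_mul k l x := by rw [Subgroup.coe_mul, map_mul]; rfl
  R_adj k x y := by
    rw [Subgroup.coe_inv, ← (regRep_W hV).adj, adjoint_inner_right]
  comm s k x := (Wr_lam hV k s x).symm
  sym x y ξ η := by
    rw [fk_symm hχ hΦ x y]
    exact (pl_sym hV (fk_bdd hχ hΦ y x) ξ η).symm
  pos s w := kk_pos hV hχ hΦ s w
  kl s x y ξ := (pl_lam hV (fk_bdd hχ hΦ _ _) (fk_bdd hχ hΦ _ _) s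
    (small_of_usm hV (fk_left hχ hΦ s x y)) ξ).symm
  kr k a b ξ := by
    have h1 := pl_comm (U := U) (z := z) hV (fk_bdd hχ hΦ (some a) (some b)) (k : Λ)
      (fun j => hz j k k.2) (fun t => small_of_usm hV (fk_right hχ hΦ t a b))
    exact congrArg (fun T : Ell2 Γ →L[ℂ] Ell2 Γ => T ξ) h1
  k1 x y ξ := by rw [Subgroup.coe_one, map_one]; rfl
  R1 i := by rw [Subgroup.coe_one, map_one]; rfl
  tr T hT k l := by
    have hTc : Cmm lamH T := by
      intro s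
      ext1 ξ
      exact hT s ξ
    rw [Fintype.sum_unique, Fintype.sum_unique, Subgroup.coe_inv, Subgroup.coe_inv,
      Subgroup.coe_inv]
    have h1 : ⟪Wr V (k : Λ)⁻¹ (dl 1), T (Wr V (l : Λ)⁻¹ (dl 1))⟫_ℂ =
        ⟪(dl 1 : Ell2 Γ), (Wr V (k : Λ)) ((T * Wr V (l : Λ)⁻¹) (dl 1))⟫_ℂ := by
      rw [← (regRep_W hV).adj, adjoint_inner_left]
      rfl
    rw [h1, regRep_lam.trace_comm (cmm_lam_W hV _) (hTc.mul (cmm_lam_W hV _))]
    change ⟪(dl 1 : Ell2 Γ), T (Wr V (l : Λ)⁻¹ (Wr V (k : Λ) (dl 1)))⟫_ℂ = _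
    rw [← mul_ap (Wr V (l : Λ)⁻¹), ← map_mul]
    congr 4
    rw [Subgroup.coe_mul, Subgroup.coe_inv, mul_inv_rev, inv_inv]
  diag ξ := by
    have : fk χ Φ (none : Option Γ) none = fk χ Φ (some 1) (some 1) := by
      funext k g
      by_cases h0 : χ k g = 0
      · rw [fk, fk, h0, zero_mul, zero_mul]
      · rw [fk, fk, hΦ.one k g h0, hΦ.one k g h0]
    rw [this]

/-! ### The quadratic forms -/

theorem th_nonneg' (hV : Frame V) (hF : ∀ k g, |F k g| ≤ C) (h0 : ∀ k g, 0 ≤ F k g)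
    (ξ : Ell2 Γ) : 0 ≤ th U V z F ξ :=
  ge_of_tendsto (th_spec hV hF ξ) (Eventually.of_forall fun k =>
    tsum_nonneg fun g => mul_nonneg (h0 k g) (by positivity))

theorem th_bound (hV : Frame V) (hF : ∀ k g, |F k g| ≤ C) (ξ : Ell2 Γ) :
    th U V z F ξ ≤ C * ‖ξ‖ ^ 2 :=
  th_le hV hF (fun δ hδ => Eventually.of_forall fun k g =>
    (le_abs_self _).trans ((hF k g).trans (by linarith))) ξ

theorem th_smul' (hV : Frame V) (hF : ∀ k g, |F k g| ≤ C) (c : ℂ) (ξ : Ell2 Γ) :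
    th U V z F (c • ξ) = ‖c‖ ^ 2 * th U V z F ξ := by
  refine tendsto_nhds_unique (th_spec hV hF _) ?_
  refine ((th_spec (U := U) (z := z) hV hF ξ).const_mul (‖c‖ ^ 2)).congr fun k => ?_
  rw [← tsum_mul_left]
  refine tsum_congr fun g => ?_
  rw [map_smul, lp.coeFn_smul, Pi.smul_apply, norm_smul]
  ring

theorem th_add2 (hV : Frame V) (hF : ∀ k g, |F k g| ≤ C) (h0 : ∀ k g, 0 ≤ F k g)
    (ξ η : Ell2 Γ) : th U V z F (ξ + η) ≤ 2 * th U V z F ξ + 2 * th U V z F η := by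
  refine le_of_tendsto_of_tendsto (th_spec hV hF _)
    (((th_spec (U := U) (z := z) hV hF ξ).const_mul 2).add
      ((th_spec (U := U) (z := z) hV hF η).const_mul 2)) (Eventually.of_forall fun k => ?_)
  have h1 := (summable_mo (hF k) (Wr V (z k) ξ)).mul_left 2
  have h2 := (summable_mo (hF k) (Wr V (z k) η)).mul_left 2
  change ∑' g, _ ≤ 2 * ∑' g, _ + 2 * ∑' g, _
  rw [← tsum_mul_left, ← tsum_mul_left, ← h1.tsum_add h2]
  refine Summable.tsum_le_tsum (fun g => ?_) (summable_mo (hF k) _) (h1.add h2)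
  rw [map_add, lp.coeFn_add, Pi.add_apply]
  have h3 : ‖Wr V (z k) ξ g + Wr V (z k) η g‖ ^ 2 ≤
      2 * ‖Wr V (z k) ξ g‖ ^ 2 + 2 * ‖Wr V (z k) η g‖ ^ 2 := by
    have h4 := norm_add_le (Wr V (z k) ξ g) (Wr V (z k) η g)
    have h5 : ‖Wr V (z k) ξ g + Wr V (z k) η g‖ ^ 2 ≤
        (‖Wr V (z k) ξ g‖ + ‖Wr V (z k) η g‖) ^ 2 := by gcongr
    nlinarith [sq_nonneg (‖Wr V (z k) ξ g‖ - ‖Wr V (z k) η g‖)]
  nlinarith [h0 k g, mul_le_mul_of_nonneg_left h3 (h0 k g)]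

/-- the defect functions -/
noncomputable def df (χ : ℕ → Γ → ℝ) (Φ : ℕ → Γ → Γ → Γ → ℝ) (k : ℕ) (g : Γ) : ℝ :=
  χ k g * (1 - Φ k g g 1)

theorem df_nonneg (hχ : CutOff U χ) (hΦ : PKer U χ Φ) (k : ℕ) (g : Γ) : 0 ≤ df χ Φ k g := by
  by_cases h0 : χ k g = 0
  · rw [df, h0, zero_mul]
  · have h1 := (abs_le.mp (hΦ.bdd k g h0 g 1)).2
    exact mul_nonneg (hχ.nonneg k g) (by linarith)

theorem df_bdd (hχ : CutOff U χ) (hΦ : PKer U χ Φ) (k : ℕ) (g : Γ) : |df χ Φ k g| ≤ 2 := by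
  rw [abs_of_nonneg (df_nonneg hχ hΦ k g)]
  by_cases h0 : χ k g = 0
  · rw [df, h0, zero_mul]; exact zero_le_two
  · have h1 := (abs_le.mp (hΦ.bdd k g h0 g 1)).1
    have h2 := (abs_le.mp (hΦ.bdd k g h0 g 1)).2
    have h3 := hχ.nonneg k g
    have h4 := hχ.le_one k g
    rw [df]
    nlinarith

theorem re_defect (hV : Frame V) (hχ : CutOff U χ) (hΦ : PKer U χ Φ) (ξ : Ell2 Γ) :
    (⟪ξ, PiL U V z (fk χ Φ (some 1) (some 1)) ξ - PiL U V z (fk χ Φ (some 1) none) ξ⟫_ℂ).re =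
      th U V z (df χ Φ) ξ := by
  have h1 := pl_add (U := U) (z := z) hV (df_bdd hχ hΦ) (fk_bdd hχ hΦ (some 1) none)
  have h2 : (fun k g => df χ Φ k g + fk χ Φ (some 1) none k g) = fk χ Φ (some 1) (some 1) := by
    funext k g
    by_cases h0 : χ k g = 0
    · rw [df, fk, fk, h0]; ring
    · rw [df, fk, fk]
      simp only [Option.getD_some, Option.getD_none]
      rw [hΦ.one k g h0, hΦ.symm k g h0 g 1]
      ring
  rw [h2] at h1
  rw [h1, add_apply, add_sub_cancel_right]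
  rfl

/-- Vectors on which the defects tend to zero. -/
theorem good_all (hV : Frame V) {D : ℕ → ℕ → Γ → ℝ} (hD : ∀ n k g, |D n k g| ≤ C)
    (h0 : ∀ n k g, 0 ≤ D n k g)
    (h1 : ∀ t : Γ, ∀ ε : ℝ, 0 < ε → ∃ n0, ∀ n ≥ n0, th U V z (D n) (dl t) ≤ ε)
    (ξ : Ell2 Γ) (ε : ℝ) (hε : 0 < ε) : ∃ n0, ∀ n ≥ n0, th U V z (D n) ξ ≤ ε := by
  classical
  have hfin : ∀ (s : Finset Γ) (c : Γ → ℂ) (ε : ℝ), 0 < ε →
      ∃ n0, ∀ n ≥ n0, th U V z (D n) (∑ t ∈ s, c t • dl t) ≤ ε := by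
    intro s c
    induction s using Finset.induction_on with
    | empty =>
      intro ε hε
      refine ⟨0, fun n _ => ?_⟩
      rw [Finset.sum_empty]
      refine (th_bound hV (hD n) 0).trans ?_
      simp [hε.le]
    | insert t s hts ih =>
      intro ε hε
      obtain ⟨n1, hn1⟩ := ih (ε / 4) (by positivity)
      obtain ⟨n2, hn2⟩ := h1 t (ε / (4 * (‖c t‖ ^ 2 + 1))) (by positivity)
      refine ⟨max n1 n2, fun n hn => ?_⟩
      rw [Finset.sum_insert hts]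
      refine (th_add2 hV (hD n) (h0 n) _ _).trans ?_
      have e1 := hn1 n (le_trans (le_max_left _ _) hn)
      have e2 := hn2 n (le_trans (le_max_right _ _) hn)
      rw [th_smul' hV (hD n)]
      have e3 : ‖c t‖ ^ 2 * th U V z (D n) (dl t) ≤ ‖c t‖ ^ 2 * (ε / (4 * (‖c t‖ ^ 2 + 1))) := by
        gcongr
      have e4 : ‖c t‖ ^ 2 * (ε / (4 * (‖c t‖ ^ 2 + 1))) ≤ ε / 4 := by
        rw [mul_div_assoc', div_le_div_iff₀ (by positivity) (by positivity)]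
        nlinarith [sq_nonneg ‖c t‖]
      linarith
  have hC : 0 ≤ C := (abs_nonneg _).trans (hD 0 0 1)
  obtain ⟨δ, hδ0, hδ⟩ : ∃ δ : ℝ, 0 < δ ∧ 2 * (C * δ ^ 2) ≤ ε / 2 := by
    refine ⟨min 1 (ε / (4 * (C + 1))), by positivity, ?_⟩
    have e1 : min 1 (ε / (4 * (C + 1))) ≤ 1 := min_le_left _ _
    have e2 : min 1 (ε / (4 * (C + 1))) ≤ ε / (4 * (C + 1)) := min_le_right _ _
    have e3 : 0 < min 1 (ε / (4 * (C + 1))) := by positivity
    have e4 : min 1 (ε / (4 * (C + 1))) ^ 2 ≤ ε / (4 * (C + 1)) := by nlinarith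
    have e5 : C * (ε / (4 * (C + 1))) ≤ ε / 4 := by
      rw [mul_div_assoc', div_le_div_iff₀ (by positivity) (by positivity)]
      nlinarith
    nlinarith [mul_le_mul_of_nonneg_left e4 hC]
  have h5 := hasSum_dl ξ
  obtain ⟨s, hs⟩ := (h5.eventually (Metric.ball_mem_nhds _ hδ0)).exists
  have hs1 : ‖ξ - ∑ t ∈ s, ξ t • (dl t : Ell2 Γ)‖ ≤ δ := by
    rw [← dist_eq_norm, dist_comm]
    exact (show dist _ _ < δ from hs).le
  obtain ⟨n0, hn0⟩ := hfin s (fun t => ξ t) (ε / 4) (by positivity)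
  refine ⟨n0, fun n hn => ?_⟩
  have e1 : ξ = ∑ t ∈ s, ξ t • (dl t : Ell2 Γ) + (ξ - ∑ t ∈ s, ξ t • (dl t : Ell2 Γ)) := by
    abel
  rw [e1]
  refine (th_add2 hV (hD n) (h0 n) _ _).trans ?_
  have e2 := hn0 n hn
  have e3 := th_bound (U := U) (z := z) hV (hD n) (ξ - ∑ t ∈ s, ξ t • (dl t : Ell2 Γ))
  have e4 : C * ‖ξ - ∑ t ∈ s, ξ t • (dl t : Ell2 Γ)‖ ^ 2 ≤ C * δ ^ 2 := by gcongr
  linarith

theorem th_aff (hV : Frame V) (hF : ∀ k g, |F k g| ≤ C) (a b : ℝ) (ξ : Ell2 Γ) :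
    th U V z (fun k g => a * F k g + b) ξ = a * th U V z F ξ + b * ‖ξ‖ ^ 2 := by
  have hb : ∀ k g, |a * F k g + b| ≤ |a| * C + |b| := by
    intro k g
    refine (abs_add_le _ _).trans ?_
    rw [abs_mul]
    have := hF k g
    gcongr
  refine tendsto_nhds_unique (th_spec hV hb ξ) ?_
  refine (((th_spec (U := U) (z := z) hV hF ξ).const_mul a).add_const (b * ‖ξ‖ ^ 2)).congr
    fun k => ?_
  have h1 := (summable_mo (hF k) (Wr V (z k) ξ)).mul_left a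
  have h2 := (summable_sq (Wr V (z k) ξ)).mul_left b
  have h3 : b * ‖ξ‖ ^ 2 = ∑' g, b * ‖Wr V (z k) ξ g‖ ^ 2 := by
    rw [tsum_mul_left, ← norm_sq, norm_W hV]
  rw [h3, ← tsum_mul_left, ← h1.tsum_add h2]
  exact tsum_congr fun g => by ring

/-- triangle inequality for the kernel -/
theorem PKer.tri (hΦ : PKer U χ Φ) {k : ℕ} {g : Γ} (h0 : χ k g ≠ 0) (a b c : Γ) :
    1 - Φ k g a c ≤ 2 * (1 - Φ k g a b) + 2 * (1 - Φ k g b c) := by
  have h1 := hΦ.pd k g h0 (Fin 3) Finset.univ ![a, b, c] ![1, -2, 1]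
  have h2 : ∑ x : Fin 3, ∑ y : Fin 3, (starRingEnd ℂ) ((![1, -2, 1] : Fin 3 → ℂ) x) *
      (![1, -2, 1] : Fin 3 → ℂ) y * (Φ k g ((![a, b, c] : Fin 3 → Γ) x)
        ((![a, b, c] : Fin 3 → Γ) y) : ℂ) =
      ((6 - 4 * Φ k g a b - 4 * Φ k g b c + 2 * Φ k g a c : ℝ) : ℂ) := by
    simp only [Fin.sum_univ_three, Matrix.cons_val_zero, Matrix.cons_val_one,
      Matrix.cons_val, map_one, map_neg, map_ofNat]
    rw [hΦ.one k g h0, hΦ.one k g h0, hΦ.one k g h0, hΦ.symm k g h0 b a, hΦ.symm k g h0 c b,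
      hΦ.symm k g h0 c a]
    push_cast
    ring
  rw [h2, Complex.ofReal_re] at h1
  linarith

theorem df_left (hχ : CutOff U χ) (hΦ : PKer U χ Φ) (t : Γ) {ε' : ℝ} (hε' : 0 ≤ ε')
    (hb : ∀ᶠ k in U, ∀ g, χ k g ≠ 0 → 1 - ε' ≤ Φ k g 1 t⁻¹) (δ : ℝ) (hδ : 0 < δ) :
    ∀ᶠ k in U, ∀ g, df χ Φ k (t * g) ≤ (2 * df χ Φ k g + 2 * ε') + δ := by
  filter_upwards [hb, hΦ.left' t t⁻¹ (δ / 3) (by positivity), hχ.left t (δ / 3) (by positivity)]
    with k h1 h2 h3 g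
  have h4 := df_nonneg hχ hΦ k g
  by_cases h0' : χ k (t * g) = 0
  · rw [df, h0', zero_mul]; linarith
  have h5 := (abs_le.mp (hΦ.bdd k (t * g) h0' (t * g) 1)).1
  have h5' := (abs_le.mp (hΦ.bdd k (t * g) h0' (t * g) 1)).2
  have h6 := (abs_le.mp (h3 g)).2
  have h6' := hχ.nonneg k (t * g)
  by_cases h0 : χ k g = 0
  · rw [h0, sub_zero] at h6
    have h7 : df χ Φ k (t * g) ≤ δ / 3 * 2 := by
      rw [df]
      nlinarith
    linarith
  · have h7 := (abs_le.mp (h2 g h0 h0')).1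
    rw [mul_inv_cancel] at h7
    have h8 := hΦ.tri h0 g 1 t⁻¹
    have h9 := h1 g h0
    have h10 := hχ.nonneg k g
    have h11 := hχ.le_one k g
    have h12 : 1 - Φ k (t * g) (t * g) 1 ≤ 2 * (1 - Φ k g g 1) + 2 * ε' + δ / 3 := by linarith
    have h13 : df χ Φ k (t * g) ≤ χ k g * (1 - Φ k (t * g) (t * g) 1) + δ / 3 * 2 := by
      rw [df]
      nlinarith
    have h14 : χ k g * (1 - Φ k (t * g) (t * g) 1) ≤ χ k g * (2 * (1 - Φ k g g 1) + 2 * ε' + δ / 3) :=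
      mul_le_mul_of_nonneg_left h12 h10
    have h15 : χ k g * (2 * ε' + δ / 3) ≤ 2 * ε' + δ / 3 := by
      have : 0 ≤ 2 * ε' + δ / 3 := by positivity
      nlinarith
    have h16 : χ k g * (2 * (1 - Φ k g g 1) + 2 * ε' + δ / 3) =
        2 * df χ Φ k g + χ k g * (2 * ε' + δ / 3) := by rw [df]; ring
    linarith

/-- **[T-a]** Property (T) implies uniform tightness. -/
theorem utight (hV : Frame V) (hχ : CutOff U χ) (K : Subgroup Λ)
    (hz : ∀ k, ∀ v ∈ K, z k * v = v * z k) {Q : Finset K} {κ : ℝ} (hK : IsKazhdanPair K Q κ)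
    {Φ : ℕ → ℕ → Γ → Γ → Γ → ℝ} {φ : ℕ → ℝ → ℝ} (hΦ : ∀ n, PKer U χ (Φ n))
    (hdd : ∀ k g, 0 ≤ dd k g)
    (hd : ∀ n, ∀ δ : ℝ, 0 < δ → ∀ᶠ k in U, ∀ g, χ k g ≠ 0 → |Φ n k g g 1 - φ n (dd k g)| ≤ δ)
    (hφ1 : ∀ R ε : ℝ, 0 < ε → ∃ n0, ∀ n ≥ n0, ∀ x, 0 ≤ x → x ≤ R → 1 - ε ≤ φ n x)
    (hφ2 : ∀ n, ∃ R : ℝ, ∀ x, R ≤ x → φ n x ≤ 1 / 2)
    (hb : ∀ t : Γ, ∀ ε : ℝ, 0 < ε → ∃ n0, ∀ n ≥ n0, ∀ᶠ k in U, ∀ g, χ k g ≠ 0 →
      1 - ε ≤ Φ n k g 1 t)
    (hT : ∀ ε : ℝ, 0 < ε → ∃ R : ℝ,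
      th U V z (fun k g => χ k g * ind (fun g => R ≤ dd k g) g) (dl 1) ≤ ε) :
    UTight U V z χ dd K := by
  have hind : ∀ (R : ℝ) k g, |χ k g * ind (fun g => R ≤ dd k g) g| ≤ 1 := by
    intro R k g
    rw [abs_mul]
    have h1 : |ind (fun g => R ≤ dd k g) g| ≤ 1 := by
      unfold ind
      split_ifs <;> simp
    have h2 := chi_abs hχ k g
    nlinarith [abs_nonneg (χ k g), abs_nonneg (ind (fun g => R ≤ dd k g) g)]
  -- the defects at `δ_e`
  have h1 : ∀ ε : ℝ, 0 < ε → ∃ n0, ∀ n ≥ n0, th U V z (df χ (Φ n)) (dl 1) ≤ ε := by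
    intro ε hε
    obtain ⟨R, hR⟩ := hT (ε / 4) (by positivity)
    obtain ⟨n0, hn0⟩ := hφ1 R (ε / 2) (by positivity)
    refine ⟨n0, fun n hn => ?_⟩
    have h2 := th_mono (U := U) (z := z) hV (F := df χ (Φ n)) (df_bdd hχ (hΦ n))
      (F' := fun k g => 2 * (χ k g * ind (fun g => R ≤ dd k g) g) + ε / 2) (C' := 2 + ε / 2)
      (fun k g => by
        refine (abs_add_le _ _).trans ?_
        rw [abs_mul, abs_two, abs_of_nonneg (by positivity : 0 ≤ ε / 2)]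
        have := hind R k g
        linarith)
      (fun δ hδ => by
        filter_upwards [hd n δ hδ] with k hk g
        have hx0 := hχ.nonneg k g
        have hx1 := hχ.le_one k g
        by_cases h0 : χ k g = 0
        · rw [df, h0]; simp; positivity
        · have e1 := hk g h0
          have e2 := (abs_le.mp e1).1
          have e3 := (abs_le.mp ((hΦ n).bdd k g h0 g 1)).1
          by_cases hR' : R ≤ dd k g
          · have e4 : ind (fun g => R ≤ dd k g) g = 1 := by unfold ind; rw [if_pos hR']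
            rw [df, e4]
            nlinarith
          · have e4 : ind (fun g => R ≤ dd k g) g = 0 := by unfold ind; rw [if_neg hR']
            have e5 := hn0 n hn (dd k g) (hdd k g) (not_le.mp hR').le
            rw [df, e4]
            have e6 : 1 - Φ n k g g 1 ≤ ε / 2 + δ := by linarith
            have e7 : 0 ≤ ε / 2 + δ := by positivity
            nlinarith [mul_le_mul_of_nonneg_left e6 hx0]) (dl 1)
    rw [th_aff hV (hind R), norm_dl] at h2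
    linarith
  -- the defects at `δ_t`
  have h2 : ∀ t : Γ, ∀ ε : ℝ, 0 < ε → ∃ n0, ∀ n ≥ n0, th U V z (df χ (Φ n)) (dl t) ≤ ε := by
    intro t ε hε
    obtain ⟨n1, hn1⟩ := h1 (ε / 4) (by positivity)
    obtain ⟨n2, hn2⟩ := hb t⁻¹ (ε / 4) (by positivity)
    refine ⟨max n1 n2, fun n hn => ?_⟩
    have e1 := hn1 n (le_trans (le_max_left _ _) hn)
    have e2 := hn2 n (le_trans (le_max_right _ _) hn)
    have e3 := th_lam (U := U) (z := z) hV (df_bdd hχ (hΦ n)) t⁻¹ (dl 1)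
    rw [inv_inv, lam_dl, mul_one] at e3
    rw [e3]
    have e4 := th_mono (U := U) (z := z) hV (F := fun k g => df χ (Φ n) k (t * g))
      (fun k g => df_bdd hχ (hΦ n) k _)
      (F' := fun k g => 2 * df χ (Φ n) k g + 2 * (ε / 4)) (C' := 4 + ε / 2)
      (fun k g => by
        refine (abs_add_le _ _).trans ?_
        rw [abs_mul, abs_two, abs_of_nonneg (by positivity : 0 ≤ 2 * (ε / 4))]
        have := df_bdd hχ (hΦ n) k g
        linarith)
      (fun δ hδ => df_left hχ (hΦ n) t (by positivity) e2 δ hδ) (dl 1)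
    rw [th_aff hV (df_bdd hχ (hΦ n)), norm_dl] at e4
    linarith
  have h3 := good_all (U := U) (z := z) hV (D := fun n => df χ (Φ n))
    (fun n => df_bdd hχ (hΦ n)) (fun n => df_nonneg hχ (hΦ n)) h2
  have hκ := hK.1
  intro ε hε
  obtain ⟨δ, hδ0, hδ⟩ : ∃ δ : ℝ, 0 < δ ∧ (2 + 8 / κ) * δ ≤ ε / 4 := by
    refine ⟨ε / (4 * (2 + 8 / κ)), by positivity, le_of_eq ?_⟩
    field_simp
  -- a level which is good on the Kazhdan set
  have h4 : ∃ n, ∀ s : K, s = 1 ∨ s ∈ Q →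
      th U V z (df χ (Φ n)) (Wr V ((s : Λ)⁻¹) (dl 1)) ≤ δ ^ 2 := by
    classical
    have h5 : ∀ s : K, ∃ n0, ∀ n ≥ n0,
        th U V z (df χ (Φ n)) (Wr V ((s : Λ)⁻¹) (dl 1)) ≤ δ ^ 2 := fun s =>
      h3 _ _ (by positivity)
    choose n0 hn0 using h5
    refine ⟨(insert 1 Q).sup n0, fun s hs => hn0 s _ ?_⟩
    refine Finset.le_sup (f := n0) ?_
    rcases hs with rfl | hs
    · exact Finset.mem_insert_self _ _
    · exact Finset.mem_insert_of_mem hs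
  obtain ⟨n, hn⟩ := h4
  have hcore := core (coreData hV hχ (hΦ n) K hz) hK hδ0.le (by
    rw [Fintype.sum_unique]
    have e1 := pl_norm_le (U := U) (z := z) hV (fk_bdd hχ (hΦ n) (some 1) (some 1)) (dl 1) (dl 1)
    rw [norm_dl] at e1
    exact (Complex.re_le_norm _).trans (by linarith)) (fun s hs => by
    rw [Fintype.sum_unique, Subgroup.coe_inv, re_defect hV hχ (hΦ n)]
    exact hn s hs)
  obtain ⟨R1, hR1⟩ := hφ2 n
  refine ⟨R1, fun v hv => ?_⟩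
  have e1 := hcore (⟨v, hv⟩ : K)⁻¹
  rw [Fintype.sum_unique, inv_inv, re_defect hV hχ (hΦ n)] at e1
  have e2 := th_mono (U := U) (z := z) hV (F := fun k g => χ k g * ind (fun g => R1 ≤ dd k g) g)
      (hind R1) (F' := fun k g => 4 * df χ (Φ n) k g + 0) (C' := 8)
      (fun k g => by
        rw [add_zero, abs_mul]
        have := df_bdd hχ (hΦ n) k g
        norm_num
        linarith)
      (fun δ' hδ' => by
        filter_upwards [hd n (1 / 4) (by norm_num)] with k hk g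
        have hx0 := hχ.nonneg k g
        have hx1 := hχ.le_one k g
        have hx2 := df_nonneg hχ (hΦ n) k g
        by_cases h0 : χ k g = 0
        · rw [h0, zero_mul]; linarith
        · by_cases hR' : R1 ≤ dd k g
          · have e3 := (abs_le.mp (hk g h0)).2
            have e4 := hR1 _ hR'
            have e5 : ind (fun g => R1 ≤ dd k g) g = 1 := by unfold ind; rw [if_pos hR']
            rw [e5, df]
            nlinarith
          · have e5 : ind (fun g => R1 ≤ dd k g) g = 0 := by unfold ind; rw [if_neg hR']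
            rw [e5]
            linarith) (Wr V v (dl 1))
  rw [th_aff hV (df_bdd hχ (hΦ n))] at e2
  change th U V z (df χ (Φ n)) (Wr V v (dl 1)) ≤ _ at e1
  linarith

end main

end Vale.Agent.P092.H715
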